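import Mathlib

/-!
Truncation of `ℓ¹` metrics at scale `T` by random parities of cuts, and dyadic tents.
-/

open Finset

namespace Vale.Agent.P235

/-- The gap below `t` in a finite set of reals (0 at the least element). -/
noncomputable def gap (A : Finset ℝ) (t : ℝ) : ℝ :=
  if h : (A.filter (fun a => a < t)).Nonempty then t - (A.filter (fun a => a < t)).max' h else 0

theorem gap_nonneg (A : Finset ℝ) (t : ℝ) : 0 ≤ gap A t := by
  unfold gap
  split
  · rename_i h
    have := (Finset.mem_filter.mp ((A.filter (fun a => a < t)).max'_mem h)).2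
    linarith
  · exact le_rfl

theorem sum_gap (A : Finset ℝ) : ∀ a ∈ A, ∀ b ∈ A, a ≤ b →
    ∑ t ∈ A.filter (fun t => a < t ∧ t ≤ b), gap A t = b - a := by
  intro a ha b hb
  induction hn : (A.filter (fun t => a < t ∧ t ≤ b)).card using Nat.strong_induction_on
    generalizing b with
  | _ n ih =>
    intro hab
    rcases eq_or_lt_of_le hab with rfl | hlt
    · rw [show A.filter (fun t => a < t ∧ t ≤ a) = ∅ from
        Finset.filter_false_of_mem fun t _ h => absurd h.1 (not_lt.mpr h.2)]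
      simp
    · have hne : (A.filter (fun s => s < b)).Nonempty := ⟨a, Finset.mem_filter.mpr ⟨ha, hlt⟩⟩
      set p := (A.filter (fun s => s < b)).max' hne with hp
      obtain ⟨hpA, hpb⟩ := Finset.mem_filter.mp ((A.filter (fun s => s < b)).max'_mem hne)
      rw [← hp] at hpA hpb
      have hap : a ≤ p := Finset.le_max' _ _ (Finset.mem_filter.mpr ⟨ha, hlt⟩)
      have hsplit : A.filter (fun t => a < t ∧ t ≤ b)
          = insert b (A.filter (fun t => a < t ∧ t ≤ p)) := by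
        ext t
        simp only [Finset.mem_filter, Finset.mem_insert]
        constructor
        · rintro ⟨ht, h1, h2⟩
          rcases eq_or_lt_of_le h2 with rfl | h2
          · exact Or.inl rfl
          · exact Or.inr ⟨ht, h1, Finset.le_max' _ _ (Finset.mem_filter.mpr ⟨ht, h2⟩)⟩
        · rintro (rfl | ⟨ht, h1, h2⟩)
          · exact ⟨hb, hlt, le_rfl⟩
          · exact ⟨ht, h1, h2.trans hpb.le⟩
      have hnb : b ∉ A.filter (fun t => a < t ∧ t ≤ p) := fun h =>
        absurd (Finset.mem_filter.mp h).2.2 (not_le.mpr hpb)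
      rw [hsplit, Finset.card_insert_of_notMem hnb] at hn
      rw [hsplit, Finset.sum_insert hnb, ih _ (by omega) p hpA rfl hap, gap, dif_pos hne, ← hp]
      ring

/-- Truncation: distances become comparable to `min δ T`, norms are at most `T / 2`. -/
theorem exists_trunc {X : Type} [Fintype X] {m : ℕ} (f : X → Fin m → ℝ) :
    ∃ (κ : Type) (_ : Fintype κ) (Ψ : ℝ → X → κ → ℝ), ∀ T : ℝ, 0 < T → ∀ x y,
      (∑ z, |Ψ T x z| ≤ T / 2) ∧
      (∑ z, |Ψ T x z - Ψ T y z| ≤ (∑ i, |f x i - f y i|) / 2) ∧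
      min (∑ i, |f x i - f y i|) T / 4 ≤ ∑ z, |Ψ T x z - Ψ T y z| := by
  classical
  let A : Fin m → Finset ℝ := fun i => Finset.univ.image (fun x => f x i)
  let K := Σ i : Fin m, ↥(A i)
  let w : K → ℝ := fun c => gap (A c.1) c.2
  let σ : X → K → ℝ := fun x c => if (c.2 : ℝ) ≤ f x c.1 then 1 else -1
  have hσ : ∀ x c, |σ x c| = 1 := fun x c => by simp only [σ]; split <;> simp
  let p : ℝ → K → ℝ := fun T c => (1 - Real.exp (-(w c) / T)) / 2
  let P : ℝ → Finset K → ℝ := fun T Z => (∏ c ∈ Z, p T c) * ∏ c ∈ Zᶜ, (1 - p T c)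
  let s : X → Finset K → ℝ := fun x Z => ∏ c ∈ Z, σ x c
  have hs : ∀ x Z, |s x Z| = 1 := fun x Z => by simp [s, Finset.abs_prod, hσ]
  have hcut : ∀ x y, ∑ c : K, (if σ x c * σ y c = 1 then 0 else w c)
      = ∑ i, |f x i - f y i| := by
    intro x y
    rw [Fintype.sum_sigma]
    refine Finset.sum_congr rfl fun i _ => ?_
    simp only [w, σ]
    rw [Finset.sum_coe_sort (A i) (fun t => if (if t ≤ f x i then (1 : ℝ) else -1)
      * (if t ≤ f y i then 1 else -1) = 1 then 0 else gap (A i) t)]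
    have hmem : ∀ z, f z i ∈ A i := fun z => Finset.mem_image_of_mem _ (Finset.mem_univ z)
    rcases le_total (f x i) (f y i) with h | h
    · rw [abs_of_nonpos (by linarith), neg_sub, ← sum_gap (A i) _ (hmem x) _ (hmem y) h,
        Finset.sum_filter]
      refine Finset.sum_congr rfl fun t _ => ?_
      by_cases h1 : t ≤ f x i <;> by_cases h2 : t ≤ f y i
      · norm_num [h1, h2]
      · exact absurd (h1.trans h) h2
      · norm_num [h1, h2, not_le.mp h1]
      · norm_num [h1, h2]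
    · rw [abs_of_nonneg (by linarith), ← sum_gap (A i) _ (hmem y) _ (hmem x) h,
        Finset.sum_filter]
      refine Finset.sum_congr rfl fun t _ => ?_
      by_cases h1 : t ≤ f x i <;> by_cases h2 : t ≤ f y i
      · norm_num [h1, h2]
      · norm_num [h1, h2, not_le.mp h2]
      · exact absurd (h2.trans h) h1
      · norm_num [h1, h2]
  refine ⟨Finset K, inferInstance, fun T x Z => T / 2 * (P T Z * s x Z), fun T hT x y => ?_⟩
  have hp : ∀ c, 0 ≤ p T c ∧ p T c ≤ 1 := by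
    intro c
    have h1 : Real.exp (-(w c) / T) ≤ 1 := Real.exp_le_one_iff.mpr
      (div_nonpos_of_nonpos_of_nonneg (by linarith [gap_nonneg (A c.1) c.2]) hT.le)
    have h2 := Real.exp_pos (-(w c) / T)
    simp only [p]
    constructor <;> linarith
  have hP : ∀ Z, 0 ≤ P T Z := fun Z => mul_nonneg (Finset.prod_nonneg fun c _ => (hp c).1)
    (Finset.prod_nonneg fun c _ => by linarith [(hp c).2])
  have hPs : ∀ a : K → ℝ, ∑ Z, P T Z * ∏ c ∈ Z, a c = ∏ c, (p T c * a c + (1 - p T c)) := by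
    intro a
    rw [Finset.prod_add, Finset.powerset_univ]
    refine Finset.sum_congr rfl fun Z _ => ?_
    rw [Finset.prod_mul_distrib]
    simp only [P, Finset.compl_eq_univ_sdiff]
    ring
  have hsum1 : ∑ Z, P T Z = 1 := by simpa using hPs (fun _ => 1)
  set δ := ∑ i, |f x i - f y i| with hδ
  have hδ0 : 0 ≤ δ := Finset.sum_nonneg fun i _ => abs_nonneg _
  have hE : ∑ Z, P T Z * (s x Z * s y Z) = Real.exp (-δ / T) := by
    simp only [s, ← Finset.prod_mul_distrib]
    rw [hPs, hδ, ← hcut x y, neg_div, Finset.sum_div, ← Finset.sum_neg_distrib, Real.exp_sum]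
    refine Finset.prod_congr rfl fun c _ => ?_
    simp only [p, σ]
    by_cases h1 : (c.2 : ℝ) ≤ f x c.1 <;> by_cases h2 : (c.2 : ℝ) ≤ f y c.1 <;>
      norm_num [h1, h2, neg_div] <;> ring
  have habs : ∀ Z, |s x Z - s y Z| = 1 - s x Z * s y Z := by
    intro Z
    rcases eq_or_eq_neg_of_abs_eq (hs x Z) with h | h <;>
      rcases eq_or_eq_neg_of_abs_eq (hs y Z) with h' | h' <;> norm_num [h, h']
  have hdist : ∑ Z, |T / 2 * (P T Z * s x Z) - T / 2 * (P T Z * s y Z)|
      = T / 2 * (1 - Real.exp (-δ / T)) := by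
    rw [← hE]
    conv_rhs => rw [← hsum1, ← Finset.sum_sub_distrib, Finset.mul_sum]
    refine Finset.sum_congr rfl fun Z _ => ?_
    rw [← mul_sub, ← mul_sub, abs_mul, abs_mul, abs_of_nonneg (hP Z),
      abs_of_pos (half_pos hT), habs]
    ring
  refine ⟨?_, ?_, ?_⟩
  · simp only [abs_mul, hs, mul_one, abs_of_nonneg (hP _), abs_of_pos (half_pos hT)]
    rw [← Finset.mul_sum, hsum1, mul_one]
  · rw [hdist]
    have h1 := Real.add_one_le_exp (-δ / T)
    have h2 : T * (δ / T) = δ := by field_simp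
    rw [neg_div] at h1 ⊢
    nlinarith
  · rw [hdist, neg_div, Real.exp_neg]
    have h2 : T * (δ / T) = δ := by field_simp
    set u := δ / T with hu
    have hu0 : 0 ≤ u := div_nonneg hδ0 hT.le
    have h1 := Real.add_one_le_exp u
    have h3 : (Real.exp u)⁻¹ ≤ (1 + u)⁻¹ := inv_anti₀ (by linarith) (by linarith)
    have h4 : (1 + u) * (1 + u)⁻¹ = 1 := mul_inv_cancel₀ (by linarith)
    have h5 : 0 < (1 + u)⁻¹ := inv_pos.mpr (by linarith)
    rcases le_total δ T with h | h
    · rw [min_eq_left h]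
      have : u ≤ 1 := by rw [hu, div_le_one hT]; exact h
      have : u / 2 ≤ 1 - (1 + u)⁻¹ := by nlinarith
      nlinarith
    · rw [min_eq_right h]
      have : 1 ≤ u := by rw [hu, le_div_iff₀ hT, one_mul]; exact h
      have : (1 + u)⁻¹ ≤ 1 / 2 := by nlinarith
      nlinarith

/-- Tent of the dyadic scale `j`. -/
noncomputable def tent (j : ℤ) (r : ℝ) : ℝ :=
  max 0 (min ((r - (2 : ℝ) ^ (j - 1)) / (2 : ℝ) ^ (j - 1)) (((2 : ℝ) ^ (j + 1) - r) / (2 : ℝ) ^ j))

theorem tent_nonneg (j : ℤ) (r : ℝ) : 0 ≤ tent j r := le_max_left _ _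

theorem tent_le_one (j : ℤ) (r : ℝ) : tent j r ≤ 1 := by
  have e0 : (2 : ℝ) ^ (j - 1) * 2 = (2 : ℝ) ^ j := by
    rw [← zpow_add_one₀ (by norm_num : (2 : ℝ) ≠ 0)]; norm_num
  have e1 : (2 : ℝ) ^ (j + 1) = (2 : ℝ) ^ j * 2 := zpow_add_one₀ (by norm_num) j
  have hp : (0 : ℝ) < (2 : ℝ) ^ (j - 1) := zpow_pos (by norm_num) _
  refine max_le zero_le_one ?_
  rcases le_total r ((2 : ℝ) ^ j) with h | h
  · refine (min_le_left _ _).trans ?_; rw [div_le_one hp]; linarith
  · refine (min_le_right _ _).trans ?_; rw [div_le_one (zpow_pos (by norm_num) j)]; linarith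

theorem tent_lip (j : ℤ) (r r' : ℝ) :
    (2 : ℝ) ^ j * |tent j r - tent j r'| ≤ 2 * |r - r'| := by
  have hp : (0 : ℝ) < (2 : ℝ) ^ (j - 1) := zpow_pos (by norm_num) _
  have e0 : (2 : ℝ) ^ (j - 1) * 2 = (2 : ℝ) ^ j := by
    rw [← zpow_add_one₀ (by norm_num : (2 : ℝ) ≠ 0)]; norm_num
  have hj : (0 : ℝ) < (2 : ℝ) ^ j := zpow_pos (by norm_num) _
  rw [mul_comm, ← le_div_iff₀ hj]
  unfold tent
  rw [max_comm 0, max_comm 0]
  refine (abs_max_sub_max_le_abs _ _ _).trans ?_
  refine (abs_min_sub_min_le_max _ _ _ _).trans (max_le ?_ ?_)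
  · rw [← sub_div, abs_div, abs_of_pos hp, sub_sub_sub_cancel_right, ← e0,
      mul_comm _ (2 : ℝ), mul_div_mul_left _ _ (two_ne_zero)]
  · rw [← sub_div, abs_div, abs_of_pos hj, sub_sub_sub_cancel_left, abs_sub_comm]
    gcongr
    linarith [abs_nonneg (r - r')]

theorem tent_pos_mem (j : ℤ) (r : ℝ) (h : 0 < tent j r) :
    (2 : ℝ) ^ (j - 1) < r ∧ r < (2 : ℝ) ^ (j + 1) := by
  unfold tent at h
  rcases lt_max_iff.mp h with h | h
  · exact absurd h (lt_irrefl _)
  · obtain ⟨h1, h2⟩ := lt_min_iff.mp h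
    rw [lt_div_iff₀ (zpow_pos (by norm_num) _), zero_mul] at h1 h2
    exact ⟨by linarith, by linarith⟩

theorem card_tent_pos (J : Finset ℤ) (r : ℝ) :
    (J.filter (fun j => 0 < tent j r)).card ≤ 2 := by
  rcases le_or_gt r 0 with hr | hr
  · rw [Finset.filter_false_of_mem]
    · simp
    · intro j _ h
      have := (tent_pos_mem j r h).1
      have : (0 : ℝ) < (2 : ℝ) ^ (j - 1) := zpow_pos (by norm_num) _
      linarith
  · refine (Finset.card_le_card (t := {Int.log 2 r, Int.log 2 r + 1}) ?_).trans Finset.card_le_two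
    intro j hj
    obtain ⟨h1, h2⟩ := tent_pos_mem j r (Finset.mem_filter.mp hj).2
    have l1 := Int.zpow_log_le_self (b := 2) (by norm_num) hr
    have l2 := Int.lt_zpow_succ_log_self (b := 2) (by norm_num) r
    push_cast at l1 l2
    have a1 := (zpow_lt_zpow_iff_right₀ (by norm_num : (1 : ℝ) < 2)).mp (h1.trans l2)
    have a2 := (zpow_lt_zpow_iff_right₀ (by norm_num : (1 : ℝ) < 2)).mp (l1.trans_lt h2)
    simp only [Finset.mem_insert, Finset.mem_singleton]
    omega

theorem exists_band (r : ℝ) (hr : 0 < r) : ∃ j : ℤ,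
    (j = Int.log 2 r ∨ j = Int.log 2 r + 1) ∧ 1 / 2 ≤ tent j r ∧ r / 2 ≤ (2 : ℝ) ^ j := by
  have l1 := Int.zpow_log_le_self (b := 2) (by norm_num) hr
  have l2 := Int.lt_zpow_succ_log_self (b := 2) (by norm_num) r
  push_cast at l1 l2
  set n := Int.log 2 r
  have e1 : (2 : ℝ) ^ (n + 1) = (2 : ℝ) ^ n * 2 := zpow_add_one₀ (by norm_num) n
  have e2 : (2 : ℝ) ^ (n + 1 + 1) = (2 : ℝ) ^ n * 2 * 2 := by
    rw [zpow_add_one₀ (by norm_num : (2 : ℝ) ≠ 0) (n + 1), e1]
  have e0 : (2 : ℝ) ^ (n - 1) * 2 = (2 : ℝ) ^ n := by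
    rw [← zpow_add_one₀ (by norm_num : (2 : ℝ) ≠ 0)]; norm_num
  have hp : (0 : ℝ) < (2 : ℝ) ^ (n - 1) := zpow_pos (by norm_num) _
  have hn : (0 : ℝ) < (2 : ℝ) ^ n := zpow_pos (by norm_num) _
  rcases le_total r ((2 : ℝ) ^ n * (3 / 2)) with h | h
  · refine ⟨n, Or.inl rfl, le_trans (le_min ?_ ?_) (le_max_right _ _), by linarith⟩
    · rw [le_div_iff₀ hp]; linarith
    · rw [le_div_iff₀ hn]; linarith
  · refine ⟨n + 1, Or.inr rfl, le_trans (le_min ?_ ?_) (le_max_right _ _), by linarith⟩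
    · rw [add_sub_cancel_right, le_div_iff₀ hn]; linarith
    · rw [e2, le_div_iff₀ (by linarith : (0 : ℝ) < (2 : ℝ) ^ (n + 1))]; linarith

end Vale.Agent.P235
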