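import Vale.Agent.P235.Main
import Vale.Agent.P235.Trunc

/-!
Deleting a set `S` of vertices: if every component of `G - S` embeds into `ℓ¹` with distortion `C`
then so does `G`, with distortion `O(C + log |S|)`.
-/

open Finset

namespace Vale.Agent.P235

variable {V : Type}

theorem apex [Fintype V] (G : SimpleGraph V) (hc : G.Connected) (ℓ : Sym2 V → ℝ)
    (hℓ : ∀ u v, G.Adj u v → 0 ≤ ℓ s(u, v)) (S : Finset V) (hS : S.Nonempty)
    (C : ℝ) (hC : 0 ≤ C) (m₀ : ℕ) (f₀ : ↥((↑S : Set V)ᶜ) → Fin m₀ → ℝ)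
    (hf : ∀ x y : ↥((↑S : Set V)ᶜ), (G.induce (↑S : Set V)ᶜ).Reachable x y →
      pathDist (G.induce (↑S : Set V)ᶜ) (fun e => ℓ (e.map Subtype.val)) x y
          ≤ ∑ i, |f₀ x i - f₀ y i| ∧
        ∑ i, |f₀ x i - f₀ y i| ≤ C *
          pathDist (G.induce (↑S : Set V)ᶜ) (fun e => ℓ (e.map Subtype.val)) x y) :
    ∃ (m : ℕ) (f : V → Fin m → ℝ), ∀ x y,
      pathDist G ℓ x y ≤ ∑ i, |f x i - f y i| ∧
        ∑ i, |f x i - f y i| ≤ (256 * C + 128 * (8 + (Nat.log 2 S.card : ℝ))) * pathDist G ℓ x y := by
  classical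
  set H := G.induce (↑S : Set V)ᶜ with hH
  set ℓ' : Sym2 ↥((↑S : Set V)ᶜ) → ℝ := fun e => ℓ (e.map Subtype.val) with hℓ'
  have hℓH : ∀ u v, H.Adj u v → 0 ≤ ℓ' s(u, v) := fun u v h => hℓ u.1 v.1 h
  set d := pathDist G ℓ with hd
  have hnn : ∀ a b, 0 ≤ d a b := pathDist_nonneg hℓ
  have hsymm : ∀ a b, d a b = d b a := pathDist_symm hℓ hc
  have htri : ∀ a b c, d a c ≤ d a b + d b c := pathDist_triangle hℓ hc
  have hrefl : ∀ a, d a a = 0 := pathDist_self hℓ
  set r : V → ℝ := fun x => setDist d x S with hr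
  have hr0 : ∀ x, 0 ≤ r x := fun x => le_setDist d x hS fun z _ => hnn x z
  have hrS : ∀ x ∈ S, r x = 0 := fun x hx =>
    le_antisymm ((setDist_le d x hx).trans (hrefl x).le) (hr0 x)
  have hrlip : ∀ x y, |r x - r y| ≤ d x y := fun x y => setDist_lip d htri hsymm hnn x y S
  obtain ⟨κ, _, Ψ, hΨ⟩ := exists_trunc f₀
  have hin : ∀ x, x ∉ S → x ∈ (↑S : Set V)ᶜ := fun x hx h => hx (Finset.mem_coe.mp h)
  let J : Finset ℤ := (Finset.univ.image fun x => Int.log 2 (r x)) ∪
    (Finset.univ.image fun x => Int.log 2 (r x) + 1)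
  -- band coordinates
  let E : V → ℤ → κ → ℝ := fun x j z =>
    if hx : x ∈ (↑S : Set V)ᶜ then tent j (r x) * Ψ ((2 : ℝ) ^ j) ⟨x, hx⟩ z else 0
  have hT : ∀ j : ℤ, (0 : ℝ) < (2 : ℝ) ^ j := fun j => zpow_pos (by norm_num) j
  have htentS : ∀ x ∈ S, ∀ j, tent j (r x) = 0 := by
    intro x hx j
    refine le_antisymm (not_lt.mp fun h => ?_) (tent_nonneg _ _)
    have := (tent_pos_mem j (r x) h).1
    rw [hrS x hx] at this
    linarith [hT (j - 1)]
  let comp : V → H.ConnectedComponent → ℝ := fun x c =>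
    if hx : x ∈ (↑S : Set V)ᶜ then (if H.connectedComponentMk ⟨x, hx⟩ = c then r x else 0) else 0
  have hcomp : ∀ x, ∑ c, |comp x c| = r x := by
    intro x
    by_cases hx : x ∈ S
    · simp [comp, hrS x hx]
    · simp only [comp, dif_pos (hin x hx), apply_ite abs, abs_zero, abs_of_nonneg (hr0 x)]
      rw [Finset.sum_ite_eq, if_pos (Finset.mem_univ _)]
  set L := Nat.log 2 S.card + 1 with hL
  have hSL : S.card < 2 ^ L := Nat.lt_pow_succ_log_self (by norm_num) _
  let Bd : V → V → ℝ := fun x y => ∑ j ∈ Finset.range L, ∑ A ∈ S.powerset,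
    wt S.card j A * |setDist d x A - setDist d y A|
  let Φ : V → V → ℝ := fun x y => (∑ j ∈ J, ∑ z, |E x j z - E y j z|)
    + (∑ c, |comp x c - comp y c|) + |r x - r y| + Bd x y
  have hE0 : ∀ x y, 0 ≤ ∑ j ∈ J, ∑ z, |E x j z - E y j z| := fun x y =>
    Finset.sum_nonneg fun j _ => Finset.sum_nonneg fun z _ => abs_nonneg _
  have hdH : ∀ a b, H.Reachable a b → d a.1 b.1 ≤ pathDist H ℓ' a b := by
    intro a b hab
    have : Nonempty (H.Walk a b) := hab
    refine le_ciInf fun p =>
      (pathDist_le hℓ (p.map (SimpleGraph.Embedding.induce _).toHom)).trans (le_of_eq ?_)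
    simp only [walkLen, hℓ', SimpleGraph.Walk.edges_map, List.map_map]
    rfl
  -- lower bound
  have hlow : ∀ x y, d x y / 128 ≤ Φ x y := by
    intro x y
    have hB : 0 ≤ Bd x y := Finset.sum_nonneg fun j _ => Finset.sum_nonneg fun A _ =>
      mul_nonneg (wt_nonneg _ _ _) (abs_nonneg _)
    have hCp : 0 ≤ ∑ c, |comp x c - comp y c| := Finset.sum_nonneg fun c _ => abs_nonneg _
    have hd0 := hnn x y
    rcases le_or_gt (max (r x) (r y)) (d x y / 4) with hm | hm
    · have := bourgain_lower S hS d htri hsymm L hSL x y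
      simp only [Φ, Bd, hr] at *
      linarith [abs_nonneg (setDist d x S - setDist d y S), hE0 x y]
    · have hsum : d x y / 4 ≤ r x + r y :=
        hm.le.trans (max_le (by linarith [hr0 y]) (by linarith [hr0 x]))
      suffices min (d x y) (r x + r y) ≤
          32 * ((∑ j ∈ J, ∑ z, |E x j z - E y j z|) + (∑ c, |comp x c - comp y c|) + |r x - r y|) by
        have h4 : d x y / 4 ≤ min (d x y) (r x + r y) := le_min (by linarith) hsum
        simp only [Φ]
        linarith
      by_cases hx : x ∈ S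
      · refine (min_le_right _ _).trans ?_
        rw [hrS x hx, zero_sub, abs_neg, abs_of_nonneg (hr0 y)]
        linarith [hr0 y, hE0 x y]
      by_cases hy : y ∈ S
      · refine (min_le_right _ _).trans ?_
        rw [hrS y hy, sub_zero, abs_of_nonneg (hr0 x)]
        linarith [hr0 x, hE0 x y]
      set a : ↥((↑S : Set V)ᶜ) := ⟨x, hin x hx⟩
      set b : ↥((↑S : Set V)ᶜ) := ⟨y, hin y hy⟩
      by_cases hab : H.Reachable a b
      · set δ := ∑ i, |f₀ a i - f₀ b i|
        have hdδ : d x y ≤ δ := (hdH a b hab).trans (hf a b hab).1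
        have hone : ∀ (x y : V) (hx : x ∈ (↑S : Set V)ᶜ) (hy : y ∈ (↑S : Set V)ᶜ),
            min (∑ i, |f₀ ⟨x, hx⟩ i - f₀ ⟨y, hy⟩ i|) (r x / 2) ≤
              8 * ((∑ j ∈ J, ∑ z, |E x j z - E y j z|) + |r x - r y|) := by
          intro x y hx hy
          rcases eq_or_lt_of_le (hr0 x) with h0 | h0
          · rw [← h0, zero_div]
            refine (min_le_right _ _).trans ?_
            linarith [hE0 x y, abs_nonneg (0 - r y)]
          obtain ⟨j, hj, hj1, hj2⟩ := exists_band (r x) h0
          have hjJ : j ∈ J := by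
            rcases hj with rfl | rfl
            · exact Finset.mem_union_left _ (Finset.mem_image_of_mem _ (Finset.mem_univ x))
            · exact Finset.mem_union_right _ (Finset.mem_image.mpr ⟨x, Finset.mem_univ x, rfl⟩)
          obtain ⟨-, -, h3⟩ := hΨ _ (hT j) ⟨x, hx⟩ ⟨y, hy⟩
          obtain ⟨h1, -, -⟩ := hΨ _ (hT j) ⟨y, hy⟩ ⟨y, hy⟩
          have hsingle := Finset.single_le_sum (f := fun j => ∑ z, |E x j z - E y j z|)
            (fun j _ => Finset.sum_nonneg fun z _ => abs_nonneg _) hjJ
          have hz : tent j (r x) * ∑ z, |Ψ ((2 : ℝ) ^ j) ⟨x, hx⟩ z - Ψ ((2 : ℝ) ^ j) ⟨y, hy⟩ z|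
              ≤ (∑ z, |E x j z - E y j z|) + |tent j (r x) - tent j (r y)| *
                ∑ z, |Ψ ((2 : ℝ) ^ j) ⟨y, hy⟩ z| := by
            rw [Finset.mul_sum, Finset.mul_sum, ← Finset.sum_add_distrib]
            refine Finset.sum_le_sum fun z _ => ?_
            simp only [E, dif_pos hx, dif_pos hy]
            rw [← abs_of_nonneg (tent_nonneg j (r x)), ← abs_mul, ← abs_mul,
              abs_of_nonneg (tent_nonneg j (r x))]
            refine le_trans (le_of_eq (congrArg _ ?_)) (abs_sub _ _)
            ring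
          have h4 : |tent j (r x) - tent j (r y)| * ∑ z, |Ψ ((2 : ℝ) ^ j) ⟨y, hy⟩ z|
              ≤ |r x - r y| := by
            have := mul_le_mul_of_nonneg_left h1 (abs_nonneg (tent j (r x) - tent j (r y)))
            linarith [tent_lip j (r x) (r y)]
          have h5 := mul_le_mul hj1 h3 (by
            have : (0 : ℝ) ≤ ∑ i, |f₀ ⟨x, hx⟩ i - f₀ ⟨y, hy⟩ i| :=
              Finset.sum_nonneg fun i _ => abs_nonneg _
            have := hT j
            positivity) (tent_nonneg j (r x))
          have h6 := min_le_min (le_refl (∑ i, |f₀ ⟨x, hx⟩ i - f₀ ⟨y, hy⟩ i|)) hj2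
          linarith [hsingle]
        have hxy := hone x y a.2 b.2
        have hyx := hone y x b.2 a.2
        rw [show (∑ i, |f₀ ⟨y, b.2⟩ i - f₀ ⟨x, a.2⟩ i|) = δ from
          Finset.sum_congr rfl fun i _ => abs_sub_comm _ _,
          show (∑ j ∈ J, ∑ z, |E y j z - E x j z|) = ∑ j ∈ J, ∑ z, |E x j z - E y j z| from
          Finset.sum_congr rfl fun j _ => Finset.sum_congr rfl fun z _ => abs_sub_comm _ _,
          abs_sub_comm (r y)] at hyx
        have m1 := min_le_left (d x y) (r x + r y)
        have m2 := min_le_right (d x y) (r x + r y)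
        rcases min_cases δ (r x / 2) with ⟨e1, -⟩ | ⟨e1, -⟩ <;>
          rcases min_cases δ (r y / 2) with ⟨e2, -⟩ | ⟨e2, -⟩ <;>
          simp only [show (∑ i, |f₀ ⟨x, a.2⟩ i - f₀ ⟨y, b.2⟩ i|) = δ from rfl, e1] at hxy <;>
          rw [e2] at hyx <;>
          linarith [hE0 x y, abs_nonneg (r x - r y)]
      · have hne : H.connectedComponentMk a ≠ H.connectedComponentMk b := fun h =>
          hab (SimpleGraph.ConnectedComponent.exact h)
        refine (min_le_right _ _).trans ?_
        have : r x + r y ≤ ∑ c, |comp x c - comp y c| := by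
          rw [← hcomp x, ← hcomp y, ← Finset.sum_add_distrib]
          refine Finset.sum_le_sum fun c _ => ?_
          simp only [comp, dif_pos (hin x hx), dif_pos (hin y hy)]
          by_cases h1 : H.connectedComponentMk a = c
          · have h2 : H.connectedComponentMk b ≠ c := fun h => hne (h1.trans h.symm)
            simp [a, b] at h1 h2
            simp [h1, h2]
          · simp [a] at h1
            simp [h1]
        linarith [hE0 x y, abs_nonneg (r x - r y), hr0 x, hr0 y]
  -- upper bound on edges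
  have hup : ∀ x y, G.Adj x y → Φ x y ≤ (6 + 2 * C + (L : ℝ)) * ℓ s(x, y) := by
    intro x y h
    have hl := hℓ x y h
    have hr' : |r x - r y| ≤ ℓ s(x, y) := (hrlip x y).trans (pathDist_adj hℓ h)
    have hBd : Bd x y ≤ (L : ℝ) * ℓ s(x, y) := by
      refine le_trans (Finset.sum_le_sum fun j _ =>
        (sum_wt_lip S d htri hsymm hnn x y j).trans (pathDist_adj hℓ h)) ?_
      simp
    have hCp : ∑ c, |comp x c - comp y c| ≤ ℓ s(x, y) := by
      by_cases hx : x ∈ S
      · have : x ∉ (↑S : Set V)ᶜ := fun h => h (Finset.mem_coe.mpr hx)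
        have e : ∀ c, comp x c - comp y c = -comp y c := fun c => by
          simp only [comp, dif_neg this, zero_sub]
        simp only [e, abs_neg, hcomp]
        rw [hrS x hx, zero_sub, abs_neg, abs_of_nonneg (hr0 y)] at hr'
        exact hr'
      by_cases hy : y ∈ S
      · have : y ∉ (↑S : Set V)ᶜ := fun h => h (Finset.mem_coe.mpr hy)
        have e : ∀ c, comp x c - comp y c = comp x c := fun c => by
          simp only [comp, dif_neg this, sub_zero]
        simp only [e, hcomp]
        rw [hrS y hy, sub_zero, abs_of_nonneg (hr0 x)] at hr'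
        exact hr'
      have hadj : H.Adj ⟨x, hin x hx⟩ ⟨y, hin y hy⟩ := h
      have hcc := SimpleGraph.ConnectedComponent.sound hadj.reachable
      simp only [comp, dif_pos (hin x hx), dif_pos (hin y hy)]
      rw [← hcc]
      refine le_of_eq_of_le (Finset.sum_eq_single (H.connectedComponentMk ⟨x, hin x hx⟩) ?_ ?_) ?_
      · intro c _ hne
        simp [Ne.symm hne]
      · simp
      · simpa using hr'
    have hband : ∀ j, ∑ z, |E x j z - E y j z| ≤
        ((if 0 < tent j (r x) then (1 : ℝ) else 0) + if 0 < tent j (r y) then 1 else 0)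
          * ((1 + C / 2) * ℓ s(x, y)) := by
      intro j
      have hbig : 0 ≤ (1 + C / 2) * ℓ s(x, y) := by positivity
      have hneither : ∀ x y, ¬ 0 < tent j (r x) → ¬ 0 < tent j (r y) →
          ∑ z, |E x j z - E y j z| = 0 := by
        intro x y h1 h2
        have e1 : tent j (r x) = 0 := le_antisymm (not_lt.mp h1) (tent_nonneg _ _)
        have e2 : tent j (r y) = 0 := le_antisymm (not_lt.mp h2) (tent_nonneg _ _)
        refine Finset.sum_eq_zero fun z _ => ?_
        simp only [E, e1, e2, zero_mul]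
        split <;> split <;> simp
      by_cases hpos : 0 < tent j (r x) ∨ 0 < tent j (r y)
      swap
      · rw [hneither x y (fun h => hpos (Or.inl h)) (fun h => hpos (Or.inr h))]
        exact mul_nonneg (add_nonneg (by split <;> norm_num) (by split <;> norm_num)) hbig
      have hcoef : 1 ≤ (if 0 < tent j (r x) then (1 : ℝ) else 0) +
          if 0 < tent j (r y) then 1 else 0 := by
        rcases hpos with h1 | h1 <;> rw [if_pos h1]
        · exact le_add_of_nonneg_right (by split <;> norm_num)
        · exact le_add_of_nonneg_left (by split <;> norm_num)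
      refine le_trans ?_ (le_mul_of_one_le_left hbig hcoef)
      have hlipT := tent_lip j (r x) (r y)
      by_cases hx : x ∈ S
      · have hxm : x ∉ (↑S : Set V)ᶜ := fun h => h (Finset.mem_coe.mpr hx)
        by_cases hy : y ∈ S
        · rw [hneither x y (by simp [htentS x hx j]) (by simp [htentS y hy j])]; exact hbig
        · obtain ⟨h1, -, -⟩ := hΨ _ (hT j) ⟨y, hin y hy⟩ ⟨y, hin y hy⟩
          simp only [E, dif_neg hxm, dif_pos (hin y hy), zero_sub, abs_neg, abs_mul,
            abs_of_nonneg (tent_nonneg j (r y)), ← Finset.mul_sum]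
          rw [htentS x hx j, zero_sub, abs_neg, abs_of_nonneg (tent_nonneg _ _)] at hlipT
          have := mul_le_mul_of_nonneg_left h1 (tent_nonneg j (r y))
          have := mul_nonneg hC hl
          linarith
      · by_cases hy : y ∈ S
        · have hym : y ∉ (↑S : Set V)ᶜ := fun h => h (Finset.mem_coe.mpr hy)
          obtain ⟨h1, -, -⟩ := hΨ _ (hT j) ⟨x, hin x hx⟩ ⟨x, hin x hx⟩
          simp only [E, dif_pos (hin x hx), dif_neg hym, sub_zero, abs_mul,
            abs_of_nonneg (tent_nonneg j (r x)), ← Finset.mul_sum]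
          rw [htentS y hy j, sub_zero, abs_of_nonneg (tent_nonneg _ _)] at hlipT
          have := mul_le_mul_of_nonneg_left h1 (tent_nonneg j (r x))
          have := mul_nonneg hC hl
          linarith
        · set a : ↥((↑S : Set V)ᶜ) := ⟨x, hin x hx⟩
          set b : ↥((↑S : Set V)ᶜ) := ⟨y, hin y hy⟩
          have hadj : H.Adj a b := h
          obtain ⟨-, h2, -⟩ := hΨ _ (hT j) a b
          obtain ⟨h1, -, -⟩ := hΨ _ (hT j) b b
          have hδ : ∑ i, |f₀ a i - f₀ b i| ≤ C * ℓ s(x, y) :=
            (hf a b hadj.reachable).2.trans (mul_le_mul_of_nonneg_left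
              (by simpa [hℓ', a, b] using pathDist_adj hℓH hadj) hC)
          have hz : ∑ z, |E x j z - E y j z| ≤
              tent j (r x) * (∑ z, |Ψ ((2 : ℝ) ^ j) a z - Ψ ((2 : ℝ) ^ j) b z|) +
                |tent j (r x) - tent j (r y)| * ∑ z, |Ψ ((2 : ℝ) ^ j) b z| := by
            rw [Finset.mul_sum, Finset.mul_sum, ← Finset.sum_add_distrib]
            refine Finset.sum_le_sum fun z _ => ?_
            simp only [E, dif_pos (hin x hx), dif_pos (hin y hy)]
            rw [← abs_of_nonneg (tent_nonneg j (r x)), ← abs_mul, ← abs_mul,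
              abs_of_nonneg (tent_nonneg j (r x))]
            refine le_trans (le_of_eq (congrArg _ ?_)) (abs_add_le _ _)
            simp only [a, b]
            ring
          have h5 := mul_le_mul (tent_le_one j (r x)) h2
            (Finset.sum_nonneg fun z _ => abs_nonneg _) zero_le_one
          have h6 := mul_le_mul_of_nonneg_left h1 (abs_nonneg (tent j (r x) - tent j (r y)))
          linarith
    have hbands : ∑ j ∈ J, ∑ z, |E x j z - E y j z| ≤ 4 * ((1 + C / 2) * ℓ s(x, y)) := by
      refine (Finset.sum_le_sum fun j _ => hband j).trans ?_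
      rw [← Finset.sum_mul, Finset.sum_add_distrib, Finset.sum_boole, Finset.sum_boole]
      refine mul_le_mul_of_nonneg_right ?_ (by positivity)
      have h1 : ((J.filter fun j => 0 < tent j (r x)).card : ℝ) ≤ 2 := by
        exact_mod_cast card_tent_pos J (r x)
      have h2 : ((J.filter fun j => 0 < tent j (r y)).card : ℝ) ≤ 2 := by
        exact_mod_cast card_tent_pos J (r y)
      linarith
    simp only [Φ]
    linarith
  let ι := (↥J × κ) ⊕ H.ConnectedComponent ⊕ Unit ⊕ (Fin L × Finset V)
  let F : V → ι → ℝ := fun x i => match i with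
    | Sum.inl (j, z) => 128 * E x j z
    | Sum.inr (Sum.inl c) => 128 * comp x c
    | Sum.inr (Sum.inr (Sum.inl _)) => 128 * r x
    | Sum.inr (Sum.inr (Sum.inr (j, A))) =>
        if A ⊆ S then 128 * (wt S.card j A * setDist d x A) else 0
  have hFΦ : ∀ x y, ∑ i, |F x i - F y i| = 128 * Φ x y := by
    intro x y
    have h96 : ∀ a b : ℝ, |128 * a - 128 * b| = 128 * |a - b| := fun a b => by
      rw [← mul_sub, abs_mul, abs_of_pos (show (0 : ℝ) < 128 by norm_num)]
    show ∑ i : (↥J × κ) ⊕ H.ConnectedComponent ⊕ Unit ⊕ (Fin L × Finset V),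
      |F x i - F y i| = _
    rw [Fintype.sum_sum_type, Fintype.sum_sum_type, Fintype.sum_sum_type, Fintype.sum_prod_type,
      Fintype.sum_prod_type, ← add_assoc, ← add_assoc]
    simp only [Φ, mul_add]
    refine congrArg₂ (· + ·) (congrArg₂ (· + ·) (congrArg₂ (· + ·) ?_ ?_) ?_) ?_
    · simp only [F, h96, Finset.mul_sum]
      exact Finset.sum_coe_sort J (fun j => ∑ z, 128 * |E x j z - E y j z|)
    · simp only [F, h96, Finset.mul_sum]
    · simp only [F, Fintype.sum_unique, h96]
    · simp only [Bd, Finset.mul_sum]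
      rw [Finset.sum_range]
      refine Finset.sum_congr rfl fun j _ => ?_
      rw [← Finset.sum_subset (Finset.subset_univ S.powerset)]
      · refine Finset.sum_congr rfl fun A hA => ?_
        simp only [F, if_pos (Finset.mem_powerset.mp hA), h96]
        rw [← mul_sub (wt S.card j A), abs_mul, abs_of_nonneg (wt_nonneg _ _ _)]
      · intro A _ hA
        have : ¬ A ⊆ S := fun h' => hA (Finset.mem_powerset.mpr h')
        simp [F, this]
  let e := Fintype.equivFin ι
  refine ⟨Fintype.card ι, fun x i => F x (e.symm i), fun x y => ?_⟩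
  rw [Equiv.sum_comp e.symm (fun i => |F x i - F y i|)]
  refine ⟨by rw [hFΦ]; linarith [hlow x y], ?_⟩
  have hwalk : ∀ {a b : V} (p : G.Walk a b),
      ∑ i, |F a i - F b i| ≤ 128 * (6 + 2 * C + (L : ℝ)) * walkLen ℓ p := by
    intro a b p
    induction p with
    | nil => simp [walkLen]
    | @cons a c b h q ih =>
      calc ∑ i, |F a i - F b i| ≤ ∑ i, (|F a i - F c i| + |F c i - F b i|) :=
            Finset.sum_le_sum fun i _ => abs_sub_le _ _ _
        _ = (∑ i, |F a i - F c i|) + ∑ i, |F c i - F b i| := Finset.sum_add_distrib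
        _ ≤ _ := by
          have h1 := hup a c h
          have h2 := hFΦ a c
          simp only [walkLen, SimpleGraph.Walk.edges_cons, List.map_cons, List.sum_cons] at ih ⊢
          nlinarith
  have hL' : (L : ℝ) = (Nat.log 2 S.card : ℝ) + 1 := by rw [hL]; push_cast; rfl
  have hC' : (0 : ℝ) < 256 * C + 128 * (8 + (Nat.log 2 S.card : ℝ)) := by positivity
  have : Nonempty (G.Walk x y) := hc x y
  rw [← div_le_iff₀' hC']
  refine le_ciInf fun p => ?_
  rw [div_le_iff₀' hC']
  exact (hwalk p).trans (mul_le_mul_of_nonneg_right (by rw [hL']; linarith) (walkLen_nonneg hℓ p))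

end Vale.Agent.P235
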