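import Vale.Agent.P235.Core

/-!
Bounded-adhesion gluing: the torso of a vertex set `S` and the components of `G - S`.
-/

open Finset

namespace Vale.Agent.P235

variable {V : Type}

/-- The torso of `S`: two vertices of `S` are adjacent if they are adjacent in `G` or both have a
neighbour in a common component of `G - S`. -/
def torso (G : SimpleGraph V) (S : Finset V) : SimpleGraph ↥S :=
  SimpleGraph.fromRel fun s t => G.Adj s.1 t.1 ∨
    ∃ a b : ↥((↑S : Set V)ᶜ), (G.induce (↑S : Set V)ᶜ).Reachable a b ∧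
      G.Adj a.1 s.1 ∧ G.Adj b.1 t.1

/-- `q` is an attachment of the component of `x`. -/
def Att (G : SimpleGraph V) (S : Finset V) (x q : V) : Prop :=
  q ∈ S ∧ ∃ (hx : x ∈ (↑S : Set V)ᶜ) (b : ↥((↑S : Set V)ᶜ)),
    (G.induce (↑S : Set V)ᶜ).Reachable ⟨x, hx⟩ b ∧ G.Adj b.1 q

theorem torso_step {G : SimpleGraph V} {S : Finset V} {y : V} {s t : ↥S} (hst : s ≠ t)
    (hs : G.Adj s.1 y) (ht : Att G S y t.1) : (torso G S).Adj s t := by
  obtain ⟨-, hy, b, hr, hb⟩ := ht
  exact (SimpleGraph.fromRel_adj _ _ _).mpr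
    ⟨hst, Or.inl (Or.inr ⟨⟨y, hy⟩, b, hr, hs.symm, hb⟩)⟩

theorem project (G : SimpleGraph V) (ℓ : Sym2 V → ℝ)
    (hℓ : ∀ u v, G.Adj u v → 0 ≤ ℓ s(u, v)) (hc : G.Connected) (S : Finset V)
    (ℓT : Sym2 ↥S → ℝ) (hT : ∀ s t : ↥S, ℓT s(s, t) ≤ pathDist G ℓ s.1 t.1)
    {x t : V} (p : G.Walk x t) (ht : t ∈ S) :
    (∀ hx : x ∈ S, ∃ w : (torso G S).Walk ⟨x, hx⟩ ⟨t, ht⟩, walkLen ℓT w ≤ walkLen ℓ p) ∧
    (x ∉ S → ∃ q : ↥S, Att G S x q.1 ∧ ∃ w : (torso G S).Walk q ⟨t, ht⟩,
      pathDist G ℓ x q.1 + walkLen ℓT w ≤ walkLen ℓ p) := by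
  induction p with
  | nil => exact ⟨fun _ => ⟨SimpleGraph.Walk.nil, by simp [walkLen]⟩, fun h => absurd ht h⟩
  | @cons x y t h p ih =>
    obtain ⟨ih1, ih2⟩ := ih ht
    have hlen : walkLen ℓ (SimpleGraph.Walk.cons h p) = ℓ s(x, y) + walkLen ℓ p := by
      simp [walkLen]
    rw [hlen]
    have hxy := pathDist_adj hℓ h
    constructor
    · intro hx
      by_cases hy : y ∈ S
      · obtain ⟨w, hw⟩ := ih1 hy
        have hadj : (torso G S).Adj ⟨x, hx⟩ ⟨y, hy⟩ :=
          (SimpleGraph.fromRel_adj _ _ _).mpr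
            ⟨fun e => h.ne (congrArg Subtype.val e), Or.inl (Or.inl h)⟩
        refine ⟨SimpleGraph.Walk.cons hadj w, ?_⟩
        have := hT ⟨x, hx⟩ ⟨y, hy⟩
        simp only [walkLen, SimpleGraph.Walk.edges_cons, List.map_cons, List.sum_cons] at hw ⊢
        linarith
      · obtain ⟨q, hq, w, hw⟩ := ih2 hy
        by_cases hxq : (⟨x, hx⟩ : ↥S) = q
        · subst hxq
          have := pathDist_nonneg hℓ y x
          have := hℓ x y h
          exact ⟨w, by linarith⟩
        · refine ⟨SimpleGraph.Walk.cons (torso_step hxq h hq) w, ?_⟩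
          have h1 := hT ⟨x, hx⟩ q
          have h2 := pathDist_triangle hℓ hc x y q.1
          simp only [walkLen, SimpleGraph.Walk.edges_cons, List.map_cons, List.sum_cons] at hw ⊢
          linarith
    · intro hx
      have hxS : x ∈ (↑S : Set V)ᶜ := fun h' => hx (Finset.mem_coe.mp h')
      by_cases hy : y ∈ S
      · obtain ⟨w, hw⟩ := ih1 hy
        exact ⟨⟨y, hy⟩, ⟨hy, hxS, ⟨x, hxS⟩, SimpleGraph.Reachable.refl _, h⟩, w, by
          linarith⟩
      · obtain ⟨q, ⟨hq, hyS, b, hr, hb⟩, w, hw⟩ := ih2 hy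
        have hadj : (G.induce (↑S : Set V)ᶜ).Adj ⟨x, hxS⟩ ⟨y, hyS⟩ := h
        refine ⟨q, ⟨hq, hxS, b, hadj.reachable.trans hr, hb⟩, w, ?_⟩
        have h2 := pathDist_triangle hℓ hc x y q.1
        linarith

theorem glue_attach [Fintype V] (G : SimpleGraph V) (hc : G.Connected) (ℓ : Sym2 V → ℝ)
    (hℓ : ∀ u v, G.Adj u v → 0 < ℓ s(u, v)) (S : Finset V) (hS : S.Nonempty) (k : ℕ)
    (hk : ∀ x, x ∉ S → ∀ Q : Finset V, (∀ q ∈ Q, Att G S x q) → Q.card ≤ k)
    (Cs : ℝ) (hCs : 0 ≤ Cs)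
    (hcore : ∀ ℓT : Sym2 ↥S → ℝ, (∀ s t, (torso G S).Adj s t → 0 < ℓT s(s, t)) →
      ∃ (m : ℕ) (f : ↥S → Fin m → ℝ), ∀ s t,
        pathDist (torso G S) ℓT s t ≤ ∑ i, |f s i - f t i| ∧
          ∑ i, |f s i - f t i| ≤ Cs * pathDist (torso G S) ℓT s t)
    (C : ℝ) (hC : 0 ≤ C) (m₀ : ℕ) (f₀ : ↥((↑S : Set V)ᶜ) → Fin m₀ → ℝ)
    (hf : ∀ x y : ↥((↑S : Set V)ᶜ), (G.induce (↑S : Set V)ᶜ).Reachable x y →
      pathDist (G.induce (↑S : Set V)ᶜ) (fun e => ℓ (e.map Subtype.val)) x y
          ≤ ∑ i, |f₀ x i - f₀ y i| ∧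
        ∑ i, |f₀ x i - f₀ y i| ≤ C *
          pathDist (G.induce (↑S : Set V)ᶜ) (fun e => ℓ (e.map Subtype.val)) x y) :
    ∃ (m : ℕ) (f : V → Fin m → ℝ), ∀ x y,
      pathDist G ℓ x y ≤ ∑ i, |f x i - f y i| ∧
        ∑ i, |f x i - f y i| ≤ 128 * (24 * ((k : ℝ) + 1) * Cs + 1) *
          (6 + 2 * C + 24 * ((k : ℝ) + 1) * Cs) * pathDist G ℓ x y := by
  classical
  have hℓ0 : ∀ u v, G.Adj u v → 0 ≤ ℓ s(u, v) := fun u v h => (hℓ u v h).le
  set d := pathDist G ℓ with hd
  have hnn : ∀ a b, 0 ≤ d a b := pathDist_nonneg hℓ0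
  have hsymm : ∀ a b, d a b = d b a := pathDist_symm hℓ0 hc
  have htri : ∀ a b c, d a c ≤ d a b + d b c := pathDist_triangle hℓ0 hc
  have hrefl : ∀ a, d a a = 0 := pathDist_self hℓ0
  have hpos : ∀ a b, a ≠ b → 0 < d a b := by
    intro a b hab
    have hne : (Finset.univ.filter fun y => G.Adj a y).Nonempty := by
      obtain ⟨w⟩ := hc a b
      cases w with
      | nil => exact absurd rfl hab
      | @cons _ y _ h _ => exact ⟨y, by simpa using h⟩
    obtain ⟨y, hy, hmin⟩ := Finset.exists_min_image _ (fun y => ℓ s(a, y)) hne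
    have : Nonempty (G.Walk a b) := hc a b
    refine lt_of_lt_of_le (hℓ a y (Finset.mem_filter.mp hy).2) (le_ciInf fun w => ?_)
    cases w with
    | nil => exact absurd rfl hab
    | @cons _ z _ h q =>
      have h1 := hmin z (by simpa using h)
      have h2 := walkLen_nonneg hℓ0 q
      simp only [walkLen, SimpleGraph.Walk.edges_cons, List.map_cons, List.sum_cons] at h2 ⊢
      linarith
  let ℓT : Sym2 ↥S → ℝ := fun e =>
    Sym2.lift ⟨fun s t => d s.1 t.1, fun s t => hsymm s.1 t.1⟩ e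
  have hℓT : ∀ s t, (torso G S).Adj s t → 0 < ℓT s(s, t) := fun s t h =>
    hpos _ _ fun e => h.ne (Subtype.ext e)
  obtain ⟨m₁, g₀, hg₀⟩ := hcore ℓT hℓT
  have hproj := fun {x t : V} (p : G.Walk x t) (ht : t ∈ S) =>
    project G ℓ hℓ0 hc S ℓT (fun s t => le_rfl) p ht
  have htw : ∀ {a b : ↥S} (w : (torso G S).Walk a b), d a.1 b.1 ≤ walkLen ℓT w := by
    intro a b w
    induction w with
    | nil => simp [walkLen, hrefl]
    | @cons a b c h q ih =>
      have := htri a.1 b.1 c.1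
      simp only [walkLen, SimpleGraph.Walk.edges_cons, List.map_cons, List.sum_cons] at ih ⊢
      show d a.1 c.1 ≤ d a.1 b.1 + _
      linarith
  have hTd : ∀ s t : ↥S, pathDist (torso G S) ℓT s t = d s.1 t.1 := by
    intro s t
    have hT0 : ∀ u v, (torso G S).Adj u v → 0 ≤ ℓT s(u, v) := fun u v h => (hℓT u v h).le
    have : Nonempty (G.Walk s.1 t.1) := hc s.1 t.1
    obtain ⟨w, -⟩ := (hproj (hc s.1 t.1).some t.2).1 s.2
    have : Nonempty ((torso G S).Walk s t) := ⟨w⟩
    refine le_antisymm (le_ciInf fun p => ?_) (le_ciInf fun w => ?_)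
    · obtain ⟨w, hw⟩ := (hproj p t.2).1 s.2
      exact (pathDist_le hT0 w).trans hw
    · exact htw w
  -- attachments and the partition of unity
  let A : V → Finset V := fun x => S.filter fun q => Att G S x q
  let r : V → ℝ := fun x => setDist d x S
  have hr : ∀ x s, s ∈ S → r x ≤ d x s := fun x s hs => setDist_le d x hs
  have hrA : ∀ x, x ∉ S → ∃ q ∈ A x, d x q = r x := by
    intro x hx
    obtain ⟨t, ht, hmin⟩ := S.exists_min_image (d x) hS
    obtain ⟨q₀, hq₀, -⟩ := (hproj (hc x t).some ht).2 hx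
    obtain ⟨q, hq, hqmin⟩ :=
      (A x).exists_min_image (d x) ⟨q₀.1, Finset.mem_filter.mpr ⟨q₀.2, hq₀⟩⟩
    refine ⟨q, hq, le_antisymm (le_setDist d x hS fun s hs => ?_) (hr x q (Finset.mem_filter.mp hq).1)⟩
    have : Nonempty (G.Walk x s) := hc x s
    refine le_ciInf fun p => ?_
    obtain ⟨q', hq', w, hw⟩ := (hproj p hs).2 hx
    have h1 := hqmin q'.1 (Finset.mem_filter.mpr ⟨q'.2, hq'⟩)
    have h2 : (0 : ℝ) ≤ walkLen ℓT w := walkLen_nonneg (fun u v h => (hℓT u v h).le) w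
    linarith
  have hrpos : ∀ x, x ∉ S → 0 < r x := by
    intro x hx
    obtain ⟨q, hq, e⟩ := hrA x hx
    rw [← e]
    exact hpos x q fun e' => hx (e' ▸ (Finset.mem_filter.mp hq).1)
  let lam : V → V → ℝ := fun x s => max 0 (2 * r x - d x s)
  let W : V → ℝ := fun x => ∑ s ∈ A x, lam x s
  have hlam0 : ∀ x s, 0 ≤ lam x s := fun x s => le_max_left _ _
  have hW : ∀ x, x ∉ S → r x ≤ W x := by
    intro x hx
    obtain ⟨q, hq, e⟩ := hrA x hx
    refine le_trans ?_ (Finset.single_le_sum (fun s _ => hlam0 x s) hq)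
    exact le_trans (by linarith) (le_max_right _ _)
  let G₀ : V → Fin m₁ → ℝ := fun s => if h : s ∈ S then g₀ ⟨s, h⟩ else 0
  have hG₀ : ∀ s ∈ S, ∀ t ∈ S,
      d s t ≤ ∑ i, |G₀ s i - G₀ t i| ∧ ∑ i, |G₀ s i - G₀ t i| ≤ Cs * d s t := by
    intro s hs t ht
    simp only [G₀, dif_pos hs, dif_pos ht]
    have := hg₀ ⟨s, hs⟩ ⟨t, ht⟩
    rwa [hTd] at this
  let g : V → Fin m₁ → ℝ := fun x =>
    if x ∈ S then G₀ x else fun i => ∑ s ∈ A x, lam x s / W x * G₀ s i
  -- distance from the image of `x` to that of a core vertex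
  have hcomb : ∀ x, x ∉ S → ∀ t ∈ S, ∑ i, |g x i - G₀ t i| ≤ Cs * (2 * r x + d x t) := by
    intro x hx t ht
    have hWx : 0 < W x := lt_of_lt_of_le (hrpos x hx) (hW x hx)
    have hone : ∑ s ∈ A x, lam x s / W x = 1 := by
      rw [← Finset.sum_div]; exact div_self hWx.ne'
    have hrew : ∀ i, g x i - G₀ t i = ∑ s ∈ A x, lam x s / W x * (G₀ s i - G₀ t i) := fun i => by
      simp only [g, if_neg hx, mul_sub, Finset.sum_sub_distrib, ← Finset.sum_mul, hone, one_mul]
    calc ∑ i, |g x i - G₀ t i|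
        ≤ ∑ i, ∑ s ∈ A x, lam x s / W x * |G₀ s i - G₀ t i| := by
          refine Finset.sum_le_sum fun i _ => ?_
          rw [hrew]
          refine (Finset.abs_sum_le_sum_abs _ _).trans (Finset.sum_le_sum fun s _ => ?_)
          rw [abs_mul, abs_of_nonneg (div_nonneg (hlam0 x s) hWx.le)]
      _ = ∑ s ∈ A x, lam x s / W x * ∑ i, |G₀ s i - G₀ t i| := by
          rw [Finset.sum_comm]; simp only [Finset.mul_sum]
      _ ≤ ∑ s ∈ A x, lam x s / W x * (Cs * (2 * r x + d x t)) := by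
          refine Finset.sum_le_sum fun s hs => ?_
          rcases (hlam0 x s).eq_or_lt with h0 | h0
          · rw [← h0]; simp
          refine mul_le_mul_of_nonneg_left ?_ (div_nonneg (hlam0 x s) hWx.le)
          refine ((hG₀ s (Finset.mem_filter.mp hs).1 t ht).2).trans
            (mul_le_mul_of_nonneg_left ?_ hCs)
          have h1 : 0 < 2 * r x - d x s := by
            rcases lt_max_iff.mp h0 with h | h
            · exact absurd h (lt_irrefl _)
            · exact h
          have := htri s x t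
          have := hsymm s x
          linarith
      _ = Cs * (2 * r x + d x t) := by rw [← Finset.sum_mul, hone, one_mul]
  set K : ℝ := 24 * ((k : ℝ) + 1) * Cs with hK
  have hk0 : (0 : ℝ) ≤ (k : ℝ) := Nat.cast_nonneg k
  have hK0 : 0 ≤ K := mul_nonneg (by linarith) hCs
  have hK7 : 7 * Cs ≤ K := by rw [hK]; exact mul_le_mul_of_nonneg_right (by linarith) hCs
  have hedge0 : ∀ x y, G.Adj x y → x ∉ S → y ∉ S → r y ≤ r x →
      ∑ i, |g x i - g y i| ≤ K * ℓ s(x, y) := by
    intro x y h hx hy hry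
    have hl := hℓ0 x y h
    have hxy := pathDist_adj hℓ0 h
    obtain ⟨s₀, hs₀, e₀⟩ := hrA x hx
    have hs₀S := (Finset.mem_filter.mp hs₀).1
    have hrl : r x ≤ r y + ℓ s(x, y) := by
      have := setDist_lip d htri hsymm hnn x y S
      linarith [le_abs_self (setDist d x S - setDist d y S)]
    rcases le_or_gt (r x) (ℓ s(x, y)) with hb | hb
    · have h1 := hcomb x hx s₀ hs₀S
      have h2 := hcomb y hy s₀ hs₀S
      have h3 := htri y x s₀
      have h4 := hsymm y x
      have h5 : ∑ i, |g x i - g y i| ≤ (∑ i, |g x i - G₀ s₀ i|) + ∑ i, |g y i - G₀ s₀ i| := by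
        rw [← Finset.sum_add_distrib]
        refine Finset.sum_le_sum fun i _ => ?_
        rw [abs_sub_comm (g y i)]
        exact abs_sub_le _ _ _
      have h6 : Cs * (2 * r x + d x s₀) + Cs * (2 * r y + d y s₀) ≤ Cs * (7 * ℓ s(x, y)) := by
        rw [← mul_add]
        refine mul_le_mul_of_nonneg_left ?_ hCs
        rw [e₀] at h3 ⊢
        linarith
      have h7 := mul_le_mul_of_nonneg_right hK7 hl
      linarith
    have hA : A y = A x := by
      ext q
      have hxS : x ∈ (↑S : Set V)ᶜ := fun h' => hx (Finset.mem_coe.mp h')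
      have hyS : y ∈ (↑S : Set V)ᶜ := fun h' => hy (Finset.mem_coe.mp h')
      have hadj : (G.induce (↑S : Set V)ᶜ).Adj ⟨x, hxS⟩ ⟨y, hyS⟩ := h
      show q ∈ S.filter _ ↔ q ∈ S.filter _
      rw [Finset.mem_filter, Finset.mem_filter]
      simp only [Att]
      constructor
      · rintro ⟨hq, _, _, b, hrb, hb⟩
        exact ⟨hq, hq, hxS, b, hadj.reachable.trans hrb, hb⟩
      · rintro ⟨hq, _, _, b, hrb, hb⟩
        exact ⟨hq, hq, hyS, b, hadj.reachable.symm.trans hrb, hb⟩
    have hWx : 0 < W x := lt_of_lt_of_le (hrpos x hx) (hW x hx)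
    have hWy : 0 < W y := lt_of_lt_of_le (hrpos y hy) (hW y hy)
    let a := fun s => lam x s / W x
    let b := fun s => lam y s / W y
    have hone : ∀ z, 0 < W z → A z = A x → ∑ s ∈ A x, lam z s / W z = 1 := fun z hz e => by
      rw [← e, ← Finset.sum_div]; exact div_self hz.ne'
    have hrew : ∀ i, g x i - g y i = ∑ s ∈ A x, (a s - b s) * (G₀ s i - G₀ s₀ i) := fun i => by
      simp only [g, if_neg hx, if_neg hy, hA, a, b, sub_mul, mul_sub, Finset.sum_sub_distrib,
        ← Finset.sum_mul, hone x hWx rfl, hone y hWy hA]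
      ring
    have hcard : ((A x).card : ℝ) ≤ (k : ℝ) := by
      exact_mod_cast hk x hx (A x) fun q hq => (Finset.mem_filter.mp hq).2
    have hdl : ∀ s, |lam x s - lam y s| ≤ 3 * ℓ s(x, y) := by
      intro s
      simp only [lam]
      rw [max_comm 0, max_comm 0]
      refine (abs_max_sub_max_le_abs _ _ _).trans (abs_le.mpr ?_)
      have h1 := htri x y s
      have h2 := htri y x s
      have h3 := hsymm y x
      constructor <;> linarith
    have hsum : ∑ s ∈ A x, |lam x s - lam y s| ≤ (k : ℝ) * (3 * ℓ s(x, y)) := by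
      refine (Finset.sum_le_card_nsmul _ _ _ fun s _ => hdl s).trans ?_
      rw [nsmul_eq_mul]
      exact mul_le_mul_of_nonneg_right hcard (by linarith)
    have hdW : |W y - W x| ≤ (k : ℝ) * (3 * ℓ s(x, y)) := by
      simp only [W, hA]
      rw [← Finset.sum_sub_distrib]
      refine (Finset.abs_sum_le_sum_abs _ _).trans ?_
      simpa only [abs_sub_comm] using hsum
    have hab : W x * ∑ s ∈ A x, |a s - b s| ≤ (k : ℝ) * (6 * ℓ s(x, y)) := by
      have hstep : ∀ s ∈ A x,
          W x * |a s - b s| ≤ |lam x s - lam y s| + b s * |W y - W x| := by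
        intro s _
        have e : W x * (a s - b s) = (lam x s - lam y s) + b s * (W y - W x) := by
          simp only [a, b]; field_simp; ring
        rw [← abs_of_pos hWx, ← abs_mul, e, abs_of_pos hWx]
        refine (abs_add_le _ _).trans (le_of_eq ?_)
        rw [abs_mul, abs_of_nonneg (div_nonneg (hlam0 y s) hWy.le)]
      rw [Finset.mul_sum]
      refine (Finset.sum_le_sum hstep).trans ?_
      rw [Finset.sum_add_distrib, ← Finset.sum_mul, hone y hWy hA, one_mul]
      linarith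
    have hterm : ∀ s ∈ A x, |a s - b s| * ∑ i, |G₀ s i - G₀ s₀ i| ≤
        |a s - b s| * (Cs * (4 * r x)) := by
      intro s hs
      by_cases h0 : lam x s = 0 ∧ lam y s = 0
      · simp [a, b, h0.1, h0.2]
      refine mul_le_mul_of_nonneg_left (((hG₀ s (Finset.mem_filter.mp hs).1 s₀ hs₀S).2).trans
        (mul_le_mul_of_nonneg_left ?_ hCs)) (abs_nonneg _)
      have h1 := htri s x s₀
      have h2 := hsymm s x
      have h3 := htri x y s
      rcases not_and_or.mp h0 with h' | h'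
      · have : 0 < 2 * r x - d x s := by
          by_contra hn
          exact h' (max_eq_left (not_lt.mp hn))
        linarith
      · have : 0 < 2 * r y - d y s := by
          by_contra hn
          exact h' (max_eq_left (not_lt.mp hn))
        linarith
    calc ∑ i, |g x i - g y i| ≤ ∑ i, ∑ s ∈ A x, |a s - b s| * |G₀ s i - G₀ s₀ i| := by
          refine Finset.sum_le_sum fun i _ => ?_
          rw [hrew]
          refine (Finset.abs_sum_le_sum_abs _ _).trans (Finset.sum_le_sum fun s _ => ?_)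
          rw [abs_mul]
      _ = ∑ s ∈ A x, |a s - b s| * ∑ i, |G₀ s i - G₀ s₀ i| := by
          rw [Finset.sum_comm]; simp only [Finset.mul_sum]
      _ ≤ (∑ s ∈ A x, |a s - b s|) * (Cs * (4 * r x)) := by
          rw [Finset.sum_mul]; exact Finset.sum_le_sum hterm
      _ = 4 * Cs * (r x * ∑ s ∈ A x, |a s - b s|) := by ring
      _ ≤ 4 * Cs * ((k : ℝ) * (6 * ℓ s(x, y))) := by
          refine mul_le_mul_of_nonneg_left (le_trans ?_ hab) (by linarith)
          exact mul_le_mul_of_nonneg_right (hW x hx) (Finset.sum_nonneg fun s _ => abs_nonneg _)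
      _ ≤ K * ℓ s(x, y) := by
          rw [hK]
          have := mul_nonneg hCs hl
          linarith
  have hflip : ∀ x y, ∑ i, |g y i - g x i| = ∑ i, |g x i - g y i| := fun x y =>
    Finset.sum_congr rfl fun i _ => abs_sub_comm _ _
  have hmix : ∀ x y, G.Adj x y → x ∈ S → y ∉ S →
      ∑ i, |g x i - g y i| ≤ K * ℓ s(x, y) := by
    intro x y h hx hy
    rw [← hflip x y]
    have h1 := hcomb y hy x hx
    have h2 : d y x ≤ ℓ s(x, y) := (hsymm y x).le.trans (pathDist_adj hℓ0 h)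
    have h3 := (hr y x hx).trans h2
    simp only [show g x = G₀ x from if_pos hx]
    have h4 : Cs * (2 * r y + d y x) ≤ Cs * (7 * ℓ s(x, y)) :=
      mul_le_mul_of_nonneg_left (by linarith [hℓ0 x y h]) hCs
    have h7 := mul_le_mul_of_nonneg_right hK7 (hℓ0 x y h)
    linarith
  have hedge : ∀ x y, G.Adj x y → ∑ i, |g x i - g y i| ≤ K * ℓ s(x, y) := by
    intro x y h
    by_cases hx : x ∈ S
    · by_cases hy : y ∈ S
      · simp only [show g x = G₀ x from if_pos hx, show g y = G₀ y from if_pos hy]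
        refine ((hG₀ x hx y hy).2).trans ?_
        exact (mul_le_mul_of_nonneg_left (pathDist_adj hℓ0 h) hCs).trans
          (mul_le_mul_of_nonneg_right (by linarith) (hℓ0 x y h))
      · exact hmix x y h hx hy
    · by_cases hy : y ∈ S
      · rw [hflip y x, Sym2.eq_swap]
        exact hmix y x h.symm hy hx
      · rcases le_total (r y) (r x) with hle | hle
        · exact hedge0 x y h hx hy hle
        · rw [← hflip x y, Sym2.eq_swap]
          exact hedge0 y x h.symm hy hx hle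
  exact glue_core G hc ℓ hℓ0 S hS C hC m₀ f₀ hf K hK0 m₁ g hedge fun s hs t ht => by
    simp only [show g s = G₀ s from if_pos hs, show g t = G₀ t from if_pos ht]
    exact (hG₀ s hs t ht).1

end Vale.Agent.P235
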