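import Mathlib

/-!
Bourgain's random-set coordinates with all sampled points taken from a prescribed set `S`.
-/

open Finset

namespace Vale.Agent.P235

variable {V : Type}

/-- Distance to a finite set (0 for the empty set). -/
noncomputable def setDist (d : V → V → ℝ) (x : V) (A : Finset V) : ℝ :=
  if h : A.Nonempty then A.inf' h (d x) else 0

theorem setDist_le (d : V → V → ℝ) (x : V) {A : Finset V} {z : V} (hz : z ∈ A) :
    setDist d x A ≤ d x z := by
  unfold setDist
  rw [dif_pos ⟨z, hz⟩]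
  exact Finset.inf'_le _ hz

theorem le_setDist (d : V → V → ℝ) (x : V) {A : Finset V} (hA : A.Nonempty) {t : ℝ}
    (h : ∀ z ∈ A, t ≤ d x z) : t ≤ setDist d x A := by
  unfold setDist
  rw [dif_pos hA]
  exact Finset.le_inf' _ _ h

theorem setDist_lip (d : V → V → ℝ) (htri : ∀ a b c, d a c ≤ d a b + d b c)
    (hsymm : ∀ a b, d a b = d b a) (hnn : ∀ a b, 0 ≤ d a b) (x y : V) (A : Finset V) :
    |setDist d x A - setDist d y A| ≤ d x y := by
  rcases A.eq_empty_or_nonempty with rfl | hA
  · simp [setDist, hnn]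
  · obtain ⟨z, hz, hzy⟩ := A.exists_mem_eq_inf' hA (d y)
    obtain ⟨w, hw, hwx⟩ := A.exists_mem_eq_inf' hA (d x)
    have hy : setDist d y A = d y z := by rw [setDist, dif_pos hA]; exact hzy
    have hx : setDist d x A = d x w := by rw [setDist, dif_pos hA]; exact hwx
    rw [abs_sub_le_iff]
    constructor
    · linarith [setDist_le d x hz, htri x y z]
    · linarith [setDist_le d y hw, htri y x w, hsymm x y]

/-- Probability of `A` when each of `k` points is kept with probability `(1/2)^(j+1)`. -/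
noncomputable def wt (k j : ℕ) (A : Finset V) : ℝ :=
  (1 / 2 : ℝ) ^ ((j + 1) * A.card) * (1 - (1 / 2 : ℝ) ^ (j + 1)) ^ (k - A.card)

theorem wt_nonneg (k j : ℕ) (A : Finset V) : 0 ≤ wt k j A := by
  have : (1 / 2 : ℝ) ^ (j + 1) ≤ 1 := pow_le_one₀ (by norm_num) (by norm_num)
  unfold wt
  exact mul_nonneg (by positivity) (pow_nonneg (by linarith) _)

theorem sum_wt [DecidableEq V] {S T : Finset V} (hT : T ⊆ S) (j : ℕ) :
    ∑ A ∈ T.powerset, wt S.card j A = (1 - (1 / 2 : ℝ) ^ (j + 1)) ^ (S.card - T.card) := by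
  have hcard := Finset.card_le_card hT
  have : ∀ A ∈ T.powerset, wt S.card j A = (1 - (1 / 2 : ℝ) ^ (j + 1)) ^ (S.card - T.card)
      * (((1 / 2 : ℝ) ^ (j + 1)) ^ A.card * (1 - (1 / 2 : ℝ) ^ (j + 1)) ^ (T.card - A.card)) := by
    intro A hA
    have hAT := Finset.card_le_card (Finset.mem_powerset.mp hA)
    unfold wt
    rw [pow_mul, mul_left_comm, ← pow_add]
    congr 2
    omega
  rw [Finset.sum_congr rfl this, ← Finset.mul_sum, Finset.sum_pow_mul_eq_add_pow]
  simp

theorem sum_wt_lip [DecidableEq V] (S : Finset V) (d : V → V → ℝ)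
    (htri : ∀ a b c, d a c ≤ d a b + d b c) (hsymm : ∀ a b, d a b = d b a)
    (hnn : ∀ a b, 0 ≤ d a b) (x y : V) (j : ℕ) :
    ∑ A ∈ S.powerset, wt S.card j A * |setDist d x A - setDist d y A| ≤ d x y := by
  refine le_trans (Finset.sum_le_sum fun A _ =>
    mul_le_mul_of_nonneg_left (setDist_lip d htri hsymm hnn x y A) (wt_nonneg _ _ _)) ?_
  rw [← Finset.sum_mul, sum_wt (subset_refl S)]
  simp

/-- The basic event: a sampled set meets a large ball and misses a small one. -/
theorem event_lower [DecidableEq V] (S : Finset V) (d : V → V → ℝ) (x y : V) (j : ℕ) (s t : ℝ)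
    (htri : ∀ a b c, d a c ≤ d a b + d b c) (hsymm : ∀ a b, d a b = d b a)
    (hst : s ≤ t) (hd : s + t ≤ d x y)
    (hB : 2 ^ j ≤ (S.filter (fun z => d x z ≤ s)).card)
    (hC : (S.filter (fun z => d y z < t)).card < 2 ^ (j + 1)) :
    (t - s) / 12 ≤ ∑ A ∈ S.powerset, wt S.card j A * |setDist d x A - setDist d y A| := by
  set B := S.filter (fun z => d x z ≤ s)
  set C := S.filter (fun z => d y z < t)
  have hBS : B ⊆ S := Finset.filter_subset _ _
  have hCS : C ⊆ S := Finset.filter_subset _ _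
  have hdisj : B ⊆ S \ C := by
    intro z hz
    refine Finset.mem_sdiff.mpr ⟨hBS hz, fun hzC => ?_⟩
    have h1 := (Finset.mem_filter.mp hz).2
    have h2 := (Finset.mem_filter.mp hzC).2
    linarith [htri x z y, hsymm z y]
  have hsub : ((S \ C) \ B).powerset ⊆ (S \ C).powerset :=
    Finset.powerset_mono.mpr Finset.sdiff_subset
  set p : ℝ := (1 / 2) ^ (j + 1) with hp
  have hp0 : 0 < p := by positivity
  have hp2 : p ≤ 1 / 2 := by
    rw [hp]; exact pow_le_of_le_one (by norm_num) (by norm_num) (Nat.succ_ne_zero _)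
  have hnp : ((2 ^ j : ℕ) : ℝ) * p = 1 / 2 := by
    rw [hp, pow_succ]; push_cast
    rw [← mul_assoc, ← mul_pow]; norm_num
  have hprob : 1 / 12 ≤ ∑ A ∈ (S \ C).powerset \ ((S \ C) \ B).powerset, wt S.card j A := by
    rw [Finset.sum_sdiff_eq_sub hsub, sum_wt Finset.sdiff_subset,
      sum_wt (Finset.sdiff_subset.trans Finset.sdiff_subset), ← hp]
    have e1 : S.card - (S \ C).card = C.card := by
      rw [Finset.card_sdiff_of_subset hCS]; have := Finset.card_le_card hCS; omega
    have e2 : S.card - ((S \ C) \ B).card = C.card + B.card := by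
      rw [Finset.card_sdiff_of_subset hdisj, Finset.card_sdiff_of_subset hCS]
      have h1 := Finset.card_le_card hCS
      have h2 := Finset.card_le_card hdisj
      rw [Finset.card_sdiff_of_subset hCS] at h2
      omega
    rw [e1, e2, pow_add]
    have h14 : (1 / 4 : ℝ) ≤ (1 - p) ^ C.card := by
      refine le_trans ?_ (pow_le_pow_of_le_one (by linarith) (by linarith)
        (show C.card ≤ 2 ^ j * 2 by rw [← pow_succ]; omega))
      rw [pow_mul]
      have h := one_add_mul_le_pow (show (-2 : ℝ) ≤ -p by linarith) (2 ^ j)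
      rw [show (1 : ℝ) + -p = 1 - p by ring] at h
      have h2 : (1 / 2 : ℝ) ≤ (1 - p) ^ (2 ^ j) := by linarith [mul_neg ((2 ^ j : ℕ) : ℝ) p]
      nlinarith
    have h23 : (1 - p) ^ B.card ≤ 2 / 3 := by
      refine le_trans (pow_le_pow_of_le_one (by linarith) (by linarith) hB) ?_
      have h := one_add_mul_le_pow (show (-2 : ℝ) ≤ p by linarith) (2 ^ j)
      have h1 : (1 - p) ^ (2 ^ j) * (1 + p) ^ (2 ^ j) ≤ 1 := by
        rw [← mul_pow]; exact pow_le_one₀ (by nlinarith) (by nlinarith)
      have h0 : 0 ≤ (1 - p) ^ (2 ^ j) := pow_nonneg (by linarith) _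
      nlinarith [mul_le_mul_of_nonneg_left h h0]
    nlinarith
  calc (t - s) / 12
      ≤ (∑ A ∈ (S \ C).powerset \ ((S \ C) \ B).powerset, wt S.card j A) * (t - s) := by
        rw [div_eq_mul_one_div, mul_comm (t - s)]
        exact mul_le_mul_of_nonneg_right hprob (by linarith)
    _ = ∑ A ∈ (S \ C).powerset \ ((S \ C) \ B).powerset, wt S.card j A * (t - s) :=
        Finset.sum_mul _ _ _
    _ ≤ ∑ A ∈ (S \ C).powerset \ ((S \ C) \ B).powerset,
          wt S.card j A * |setDist d x A - setDist d y A| := by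
        refine Finset.sum_le_sum fun A hA => mul_le_mul_of_nonneg_left ?_ (wt_nonneg _ _ _)
        obtain ⟨hA1, hA2⟩ := Finset.mem_sdiff.mp hA
        rw [Finset.mem_powerset] at hA1 hA2
        obtain ⟨z, hzA, hz⟩ := Finset.not_subset.mp hA2
        have hzB : z ∈ B := by
          by_contra hzB
          exact hz (Finset.mem_sdiff.mpr ⟨hA1 hzA, hzB⟩)
        have hxs : setDist d x A ≤ s :=
          (setDist_le d x hzA).trans (Finset.mem_filter.mp hzB).2
        have hyt : t ≤ setDist d y A := by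
          refine le_setDist d y ⟨z, hzA⟩ fun w hw => ?_
          obtain ⟨hwS, hwC⟩ := Finset.mem_sdiff.mp (hA1 hw)
          by_contra hlt
          exact hwC (Finset.mem_filter.mpr ⟨hwS, not_le.mp hlt⟩)
        rw [abs_sub_comm]
        exact le_trans (by linarith) (le_abs_self _)
    _ ≤ _ := Finset.sum_le_sum_of_subset_of_nonneg
        (Finset.sdiff_subset.trans (Finset.powerset_mono.mpr Finset.sdiff_subset))
        (fun A _ _ => mul_nonneg (wt_nonneg _ _ _) (abs_nonneg _))

/-- Bourgain's lower bound for points at distance at most `m` from `S`. -/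
theorem bourgain_lower [DecidableEq V] (S : Finset V) (hS : S.Nonempty) (d : V → V → ℝ)
    (htri : ∀ a b c, d a c ≤ d a b + d b c) (hsymm : ∀ a b, d a b = d b a)
    (L : ℕ) (hL : S.card < 2 ^ L) (x y : V) :
    (d x y / 2 - max (setDist d x S) (setDist d y S)) / 12 ≤
      ∑ j ∈ Finset.range L, ∑ A ∈ S.powerset,
        wt S.card j A * |setDist d x A - setDist d y A| := by
  set D := d x y / 2 with hD
  let good : ℕ → ℝ → Prop := fun j t =>
    2 ^ j ≤ (S.filter (fun z => d x z ≤ t)).card ∧ 2 ^ j ≤ (S.filter (fun z => d y z ≤ t)).card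
  let C0 : Finset ℝ := S.image (d x) ∪ S.image (d y)
  let ρ : ℕ → ℝ := fun j => (insert D (C0.filter (good j))).min' ⟨D, Finset.mem_insert_self _ _⟩
  have hρD : ∀ j, ρ j ≤ D := fun j => Finset.min'_le _ _ (Finset.mem_insert_self _ _)
  have hρle : ∀ j t, t ∈ C0 → good j t → ρ j ≤ t := fun j t ht hg =>
    Finset.min'_le _ _ (Finset.mem_insert_of_mem (Finset.mem_filter.mpr ⟨ht, hg⟩))
  have hρgood : ∀ j, ρ j < D → good j (ρ j) := by
    intro j hlt
    have := Finset.min'_mem (insert D (C0.filter (good j))) ⟨D, Finset.mem_insert_self _ _⟩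
    rcases Finset.mem_insert.mp this with h | h
    · exact absurd h hlt.ne
    · exact (Finset.mem_filter.mp h).2
  have hopen : ∀ j, (S.filter (fun z => d x z < ρ j)).card < 2 ^ j ∨
      (S.filter (fun z => d y z < ρ j)).card < 2 ^ j := by
    intro j
    by_contra hcon
    push Not at hcon
    obtain ⟨h1, h2⟩ := hcon
    have hne1 : (S.filter (fun z => d x z < ρ j)).Nonempty :=
      Finset.card_pos.mp (lt_of_lt_of_le (Nat.two_pow_pos j) h1)
    have hne2 : (S.filter (fun z => d y z < ρ j)).Nonempty :=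
      Finset.card_pos.mp (lt_of_lt_of_le (Nat.two_pow_pos j) h2)
    obtain ⟨z1, hz1, hm1⟩ := Finset.exists_max_image _ (d x) hne1
    obtain ⟨z2, hz2, hm2⟩ := Finset.exists_max_image _ (d y) hne2
    have hg : good j (max (d x z1) (d y z2)) := by
      refine ⟨h1.trans (Finset.card_le_card fun z hz => ?_),
        h2.trans (Finset.card_le_card fun z hz => ?_)⟩
      · exact Finset.mem_filter.mpr ⟨(Finset.mem_filter.mp hz).1,
          (hm1 z hz).trans (le_max_left _ _)⟩
      · exact Finset.mem_filter.mpr ⟨(Finset.mem_filter.mp hz).1,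
          (hm2 z hz).trans (le_max_right _ _)⟩
    have hmem : max (d x z1) (d y z2) ∈ C0 := by
      rcases max_choice (d x z1) (d y z2) with h | h <;> rw [h]
      · exact Finset.mem_union_left _ (Finset.mem_image_of_mem _ (Finset.mem_filter.mp hz1).1)
      · exact Finset.mem_union_right _ (Finset.mem_image_of_mem _ (Finset.mem_filter.mp hz2).1)
    have hlt : max (d x z1) (d y z2) < ρ j :=
      max_lt (Finset.mem_filter.mp hz1).2 (Finset.mem_filter.mp hz2).2
    exact absurd (hρle j _ hmem hg) (not_le.mpr hlt)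
  have hρL : ρ L = D := by
    refine le_antisymm (hρD L) (not_lt.mp fun hlt => ?_)
    have h1 := (hρgood L hlt).1
    have h2 := Finset.card_filter_le S (fun z => d x z ≤ ρ L)
    omega
  have hρ0 : ρ 0 ≤ max (setDist d x S) (setDist d y S) := by
    obtain ⟨z1, hz1, hx⟩ := S.exists_mem_eq_inf' hS (d x)
    obtain ⟨z2, hz2, hy⟩ := S.exists_mem_eq_inf' hS (d y)
    have ex : setDist d x S = d x z1 := by rw [setDist, dif_pos hS]; exact hx
    have ey : setDist d y S = d y z2 := by rw [setDist, dif_pos hS]; exact hy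
    rw [ex, ey]
    refine hρle 0 _ ?_ ⟨?_, ?_⟩
    · rcases max_choice (d x z1) (d y z2) with h | h <;> rw [h]
      · exact Finset.mem_union_left _ (Finset.mem_image_of_mem _ hz1)
      · exact Finset.mem_union_right _ (Finset.mem_image_of_mem _ hz2)
    · exact Finset.card_pos.mpr ⟨z1, Finset.mem_filter.mpr ⟨hz1, le_max_left _ _⟩⟩
    · exact Finset.card_pos.mpr ⟨z2, Finset.mem_filter.mpr ⟨hz2, le_max_right _ _⟩⟩
  have hstep : ∀ j, (ρ (j + 1) - ρ j) / 12 ≤
      ∑ A ∈ S.powerset, wt S.card j A * |setDist d x A - setDist d y A| := by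
    intro j
    rcases le_or_gt (ρ (j + 1)) (ρ j) with h | h
    · exact le_trans (by linarith)
        (Finset.sum_nonneg fun A _ => mul_nonneg (wt_nonneg _ _ _) (abs_nonneg _))
    · obtain ⟨g1, g2⟩ := hρgood j (lt_of_lt_of_le h (hρD _))
      have hd : ρ j + ρ (j + 1) ≤ d x y := by linarith [hρD j, hρD (j + 1)]
      rcases hopen (j + 1) with ho | ho
      · have := event_lower S d y x j (ρ j) (ρ (j + 1)) htri hsymm h.le (hsymm y x ▸ hd) g2 ho
        refine this.trans (le_of_eq (Finset.sum_congr rfl fun A _ => ?_))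
        rw [abs_sub_comm]
      · exact event_lower S d x y j (ρ j) (ρ (j + 1)) htri hsymm h.le hd g1 ho
  have htel : ∑ j ∈ Finset.range L, (ρ (j + 1) - ρ j) = ρ L - ρ 0 := Finset.sum_range_sub ρ L
  refine le_trans ?_ (Finset.sum_le_sum fun j _ => hstep j)
  rw [← Finset.sum_div, htel, hρL]
  linarith

end Vale.Agent.P235
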