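import Mathlib

/-!
Shortest-path metric of a graph with edge lengths.
-/

namespace Vale.Agent.P235

variable {V : Type}

/-- Total length of a walk. -/
noncomputable def walkLen {G : SimpleGraph V} (ℓ : Sym2 V → ℝ) {u v : V} (p : G.Walk u v) : ℝ :=
  (p.edges.map ℓ).sum

/-- Shortest-path distance: the infimum of the lengths of the walks from `u` to `v`. -/
noncomputable def pathDist (G : SimpleGraph V) (ℓ : Sym2 V → ℝ) (u v : V) : ℝ :=
  ⨅ p : G.Walk u v, walkLen ℓ p

end Vale.Agent.P235
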