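import Mathlib

/-!
Rooting of a forest on the complement of `S`, and coordinates indexed by ancestor segments.
-/

open Finset

namespace Vale.Agent.P235

variable {V : Type}

theorem exists_rooting (G : SimpleGraph V) (S : Finset V)
    (hF : (G.induce (↑S : Set V)ᶜ).IsAcyclic) :
    ∃ (par : V → Option V) (rk : V → ℕ),
      (∀ x p, par x = some p → x ∉ S ∧ p ∉ S ∧ G.Adj x p ∧ rk p < rk x) ∧
      (∀ x y, x ∉ S → y ∉ S → G.Adj x y → par x = some y ∨ par y = some x) := by
  classical
  set H := G.induce (↑S : Set V)ᶜ
  have huq : ∀ {a b : ↥((↑S : Set V)ᶜ)} {p q : H.Walk a b}, p.IsPath → q.IsPath → p = q :=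
    fun {a b p q} hp hq => congrArg Subtype.val
      ((hF.subsingleton_path a b).elim ⟨p, hp⟩ ⟨q, hq⟩)
  let root : ↥((↑S : Set V)ᶜ) → ↥((↑S : Set V)ᶜ) :=
    fun x => (H.connectedComponentMk x).exists_rep.choose
  have hreach : ∀ x, H.Reachable (root x) x := fun x =>
    SimpleGraph.ConnectedComponent.exact (H.connectedComponentMk x).exists_rep.choose_spec
  have hroot : ∀ x y, H.Adj x y → root y = root x := by
    intro x y h
    have : H.connectedComponentMk y = H.connectedComponentMk x :=
      SimpleGraph.ConnectedComponent.sound h.symm.reachable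
    simp only [root, this]
  let dep : ↥((↑S : Set V)ᶜ) → ℕ := fun x => H.dist (root x) x
  have hkey : ∀ x y, H.Adj x y → dep x = dep y + 1 ∨ dep y = dep x + 1 := by
    intro x y h
    obtain ⟨p, hp, hpl⟩ := (hreach x).exists_path_of_dist
    obtain ⟨q, hq, hql⟩ := (hreach y).exists_path_of_dist
    have hr := hroot x y h
    let q' : H.Walk (root x) y := q.copy hr rfl
    have hq' : q'.IsPath := by simpa [q'] using hq
    have hql' : q'.length = dep y := by simpa [q', dep] using hql
    by_cases hx : x ∈ q'.support
    · right
      have h1 := huq hp (hq'.takeUntil hx)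
      have h3 : q' = p.concat h := huq hq' (hp.concat (by
        intro hy
        rw [h1] at hy
        exact SimpleGraph.Walk.endpoint_notMem_support_takeUntil hq' hx h.ne.symm hy) h)
      rw [← hql', h3, SimpleGraph.Walk.length_concat, hpl]
    · left
      have h3 : p = q'.concat h.symm := huq hp (hq'.concat hx h.symm)
      rw [show dep x = p.length from hpl.symm, h3, SimpleGraph.Walk.length_concat, hql']
  have huniq : ∀ x y z, H.Adj x y → H.Adj x z → dep y + 1 = dep x → dep z + 1 = dep x →
      y = z := by
    intro x y z hy hz hdy hdz
    have hryx := hroot x y hy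
    have hrzx := hroot x z hz
    obtain ⟨p, hp, hpl⟩ := (hreach y).exists_path_of_dist
    obtain ⟨q, hq, hql⟩ := (hreach z).exists_path_of_dist
    let p' : H.Walk (root x) y := p.copy hryx rfl
    let q' : H.Walk (root x) z := q.copy hrzx rfl
    have hpl' : p'.length = dep y := by simpa [p', dep] using hpl
    have hql' : q'.length = dep z := by simpa [q', dep] using hql
    have h1 : (p'.concat hy.symm).IsPath := SimpleGraph.Walk.isPath_of_length_eq_dist _ (by
      rw [SimpleGraph.Walk.length_concat, hpl', hdy])
    have h2 : (q'.concat hz.symm).IsPath := SimpleGraph.Walk.isPath_of_length_eq_dist _ (by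
      rw [SimpleGraph.Walk.length_concat, hql', hdz])
    have h3 := congrArg SimpleGraph.Walk.penultimate (huq h1 h2)
    simpa using h3
  let par : V → Option V := fun x =>
    if hx : x ∈ (↑S : Set V)ᶜ then
      if h : ∃ y, H.Adj ⟨x, hx⟩ y ∧ dep y + 1 = dep ⟨x, hx⟩ then some h.choose.val else none
    else none
  let rk : V → ℕ := fun x => if hx : x ∈ (↑S : Set V)ᶜ then dep ⟨x, hx⟩ else 0
  refine ⟨par, rk, ?_, ?_⟩
  · intro x p hp
    simp only [par] at hp
    split at hp
    · rename_i hx
      split at hp
      · rename_i h
        rw [Option.some.injEq] at hp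
        obtain ⟨h1, h2⟩ := h.choose_spec
        subst hp
        refine ⟨by simpa using hx, fun hc => h.choose.property (Finset.mem_coe.mpr hc), h1, ?_⟩
        simp only [rk, dif_pos hx, dif_pos h.choose.property, Subtype.coe_eta]
        omega
      · exact absurd hp (by simp)
    · exact absurd hp (by simp)
  · intro x y hx hy hxy
    have hx' : x ∈ (↑S : Set V)ᶜ := by simpa using hx
    have hy' : y ∈ (↑S : Set V)ᶜ := by simpa using hy
    have main : ∀ a b (ha : a ∈ (↑S : Set V)ᶜ) (hb : b ∈ (↑S : Set V)ᶜ),
        H.Adj ⟨a, ha⟩ ⟨b, hb⟩ → dep ⟨a, ha⟩ = dep ⟨b, hb⟩ + 1 → par a = some b := by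
      intro a b ha hb hab hdep
      have hex : ∃ z, H.Adj ⟨a, ha⟩ z ∧ dep z + 1 = dep ⟨a, ha⟩ := ⟨⟨b, hb⟩, hab, hdep.symm⟩
      simp only [par, dif_pos ha, dif_pos hex]
      rw [huniq _ _ _ hex.choose_spec.1 hab hex.choose_spec.2 hdep.symm]
    rcases hkey ⟨x, hx'⟩ ⟨y, hy'⟩ hxy with h | h
    · exact Or.inl (main x y hx' hy' hxy h)
    · exact Or.inr (main y x hy' hx' hxy.symm h)

/-- Ancestors of `x` (including `x`). -/
noncomputable def anc [Fintype V] (par : V → Option V) (x : V) : Finset V := by
  classical
  exact Finset.univ.filter (fun v => Relation.ReflTransGen (fun a b => par a = some b) x v)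

section
variable [Fintype V] [DecidableEq V] (par : V → Option V) (rk : V → ℕ)

omit [DecidableEq V] in
theorem mem_anc {x v : V} :
    v ∈ anc par x ↔ Relation.ReflTransGen (fun a b => par a = some b) x v := by
  simp [anc]

omit [DecidableEq V] in
theorem self_mem_anc (x : V) : x ∈ anc par x := (mem_anc par).mpr Relation.ReflTransGen.refl

omit [DecidableEq V] in
theorem anc_subset {x v : V} (h : v ∈ anc par x) : anc par v ⊆ anc par x := fun _ hw =>
  (mem_anc par).mpr (((mem_anc par).mp h).trans ((mem_anc par).mp hw))

omit [DecidableEq V] in
theorem anc_none {x : V} (h : par x = none) : anc par x = {x} := by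
  ext v
  rw [mem_anc, Finset.mem_singleton]
  constructor
  · intro hv
    rcases hv.cases_head with h1 | ⟨c, hc, -⟩
    · exact h1.symm
    · rw [h] at hc; simp at hc
  · rintro rfl; exact Relation.ReflTransGen.refl

theorem anc_some {x p : V} (h : par x = some p) : anc par x = insert x (anc par p) := by
  ext v
  rw [mem_anc, Finset.mem_insert, mem_anc]
  constructor
  · intro hv
    rcases hv.cases_head with h1 | ⟨c, hc, hcv⟩
    · exact Or.inl h1.symm
    · rw [h, Option.some.injEq] at hc; subst hc; exact Or.inr hcv
  · rintro (rfl | hv)
    · exact Relation.ReflTransGen.refl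
    · exact hv.head h

omit [DecidableEq V] in
theorem rk_le_of_mem (hrk : ∀ x p, par x = some p → rk p < rk x) {x v : V}
    (h : v ∈ anc par x) : rk v ≤ rk x := by
  rw [mem_anc] at h
  induction h with
  | refl => exact le_rfl
  | tail _ hbc ih => exact (hrk _ _ hbc).le.trans ih

theorem notMem_anc_parent (hrk : ∀ x p, par x = some p → rk p < rk x) {x p : V}
    (h : par x = some p) : x ∉ anc par p := fun hx =>
  absurd (rk_le_of_mem par rk hrk hx) (not_le.mpr (hrk x p h))

variable (len : V → ℝ)

/-- Depth. -/
noncomputable def height (x : V) : ℝ := ∑ v ∈ anc par x, len v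

/-- Length of the part of the edge above `v` that lies below height-level `u`. -/
noncomputable def clip (u : ℝ) (v : V) : ℝ :=
  max 0 (height par len v - max (height par len v - len v) u)

theorem height_some (hrk : ∀ x p, par x = some p → rk p < rk x) {x p : V} (h : par x = some p) :
    height par len x = len x + height par len p := by
  rw [height, anc_some par h, Finset.sum_insert (notMem_anc_parent par rk hrk h)]
  rfl

omit [DecidableEq V] in
theorem clip_antitone {u u' : ℝ} (h : u ≤ u') (v : V) : clip par len u' v ≤ clip par len u v :=
  max_le_max le_rfl (by linarith [max_le_max (le_refl (height par len v - len v)) h])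

variable (hrk : ∀ x p, par x = some p → rk p < rk x) (hlen : ∀ v, 0 ≤ len v)
include hrk hlen

theorem sum_clip {u : ℝ} (hu : 0 ≤ u) (x : V) :
    ∑ v ∈ anc par x, clip par len u v = max 0 (height par len x - u) := by
  induction hn : rk x using Nat.strong_induction_on generalizing x with
  | _ n ih =>
    rcases hx : par x with _ | p
    · rw [anc_none par hx, Finset.sum_singleton, clip]
      have : height par len x = len x := by rw [height, anc_none par hx, Finset.sum_singleton]
      rw [this, sub_self, max_eq_right hu]
    · rw [anc_some par hx, Finset.sum_insert (notMem_anc_parent par rk hrk hx),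
        ih (rk p) (hn ▸ hrk x p hx) p rfl, clip, height_some par rk len hrk hx, add_sub_cancel_left]
      have := hlen x
      rcases le_total u (height par len p) with h1 | h1
      · rw [max_eq_left h1, max_eq_right (by linarith : (0 : ℝ) ≤ len x + height par len p -
          height par len p), max_eq_right (by linarith : (0 : ℝ) ≤ height par len p - u),
          max_eq_right (by linarith : (0 : ℝ) ≤ len x + height par len p - u)]
        ring
      · rw [max_eq_right h1, max_eq_left (by linarith : height par len p - u ≤ 0), add_zero]

theorem sum_clip_sdiff {u : ℝ} (x y : V) :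
    min (∑ v ∈ anc par x \ anc par y, len v) (max 0 (height par len x - u))
      ≤ ∑ v ∈ anc par x \ anc par y, clip par len u v := by
  induction hn : rk x using Nat.strong_induction_on generalizing x with
  | _ n ih =>
    by_cases hxy : x ∈ anc par y
    · rw [Finset.sdiff_eq_empty_iff_subset.mpr (anc_subset par hxy)]
      simp
    rcases hx : par x with _ | p
    · rw [anc_none par hx, Finset.sdiff_eq_self_of_disjoint (by simpa using hxy),
        Finset.sum_singleton, Finset.sum_singleton, clip]
      have : height par len x = len x := by rw [height, anc_none par hx, Finset.sum_singleton]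
      rw [this, sub_self]
      have := hlen x
      rcases le_total u 0 with h1 | h1
      · rw [max_eq_left h1, sub_zero, max_eq_right this]; exact min_le_left _ _
      · rw [max_eq_right h1]; exact min_le_right _ _
    · have hnp : x ∉ anc par p \ anc par y := fun h =>
        notMem_anc_parent par rk hrk hx (Finset.mem_sdiff.mp h).1
      rw [anc_some par hx, Finset.insert_sdiff_of_notMem _ hxy, Finset.sum_insert hnp,
        Finset.sum_insert hnp]
      refine le_trans ?_ (add_le_add_right (ih (rk p) (hn ▸ hrk x p hx) p rfl) _)
      rw [clip, height_some par rk len hrk hx, add_sub_cancel_left]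
      have := hlen x
      rcases le_total u (height par len p) with h1 | h1
      · rw [max_eq_left h1, add_sub_cancel_right, max_eq_right this,
          max_eq_right (by linarith : (0 : ℝ) ≤ height par len p - u),
          max_eq_right (by linarith : (0 : ℝ) ≤ len x + height par len p - u), ← min_add_add_left]
        exact min_le_min le_rfl (by linarith)
      · rw [max_eq_right h1, max_eq_left (by linarith : height par len p - u ≤ 0),
          min_eq_right (Finset.sum_nonneg fun v _ => hlen v)]
        rw [add_zero]
        exact min_le_right _ _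

theorem height_ge {R : ℝ} (hR : ∀ x, par x = none → R ≤ len x) (x : V) :
    R ≤ height par len x := by
  induction hn : rk x using Nat.strong_induction_on generalizing x with
  | _ n ih =>
    rcases hx : par x with _ | p
    · rw [height, anc_none par hx, Finset.sum_singleton]; exact hR x hx
    · rw [height_some par rk len hrk hx]
      linarith [ih (rk p) (hn ▸ hrk x p hx) p rfl, hlen x]

omit hlen in
theorem tree_dist (d : V → V → ℝ) (hrefl : ∀ a, d a a = 0) (hsymm : ∀ a b, d a b = d b a)
    (htri : ∀ a b c, d a c ≤ d a b + d b c) (hstep : ∀ x p, par x = some p → d x p ≤ len x)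
    (x y : V) (h : (anc par x ∩ anc par y).Nonempty) :
    d x y ≤ (∑ v ∈ anc par x \ anc par y, len v) + ∑ v ∈ anc par y \ anc par x, len v := by
  have hup : ∀ (y x : V), x ∈ anc par y → d y x ≤ height par len y - height par len x := by
    intro y
    induction hn : rk y using Nat.strong_induction_on generalizing y with
    | _ n ih =>
      intro x hx
      rcases hy : par y with _ | p
      · rw [anc_none par hy, Finset.mem_singleton] at hx
        subst hx; simp [hrefl]
      · rw [anc_some par hy, Finset.mem_insert] at hx
        rcases hx with rfl | hx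
        · simp [hrefl]
        · rw [height_some par rk len hrk hy]
          linarith [htri y p x, hstep y p hy, ih (rk p) (hn ▸ hrk y p hy) p rfl x hx]
  induction hn : rk x using Nat.strong_induction_on generalizing x with
  | _ n ih =>
    by_cases hxy : x ∈ anc par y
    · rw [Finset.sdiff_eq_empty_iff_subset.mpr (anc_subset par hxy), Finset.sum_empty, zero_add,
        Finset.sum_sdiff_eq_sub (anc_subset par hxy), hsymm]
      exact hup y x hxy
    rcases hx : par x with _ | p
    · obtain ⟨z, hz⟩ := h
      rw [anc_none par hx, Finset.mem_inter, Finset.mem_singleton] at hz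
      exact absurd (hz.1 ▸ hz.2) hxy
    · have hne : (anc par p ∩ anc par y).Nonempty := by
        obtain ⟨z, hz⟩ := h
        rw [anc_some par hx, Finset.mem_inter, Finset.mem_insert] at hz
        rcases hz with ⟨rfl | hz1, hz2⟩
        · exact absurd hz2 hxy
        · exact ⟨z, Finset.mem_inter.mpr ⟨hz1, hz2⟩⟩
      have h2 := ih (rk p) (hn ▸ hrk x p hx) p hne rfl
      have hnp : x ∉ anc par p \ anc par y := fun h =>
        notMem_anc_parent par rk hrk hx (Finset.mem_sdiff.mp h).1
      have heq : anc par y \ anc par x = anc par y \ anc par p := by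
        ext v
        rw [anc_some par hx]
        simp only [Finset.mem_sdiff, Finset.mem_insert, not_or]
        exact ⟨fun ⟨a, _, c⟩ => ⟨a, c⟩, fun ⟨a, c⟩ => ⟨a, fun hv => hxy (hv ▸ a), c⟩⟩
      rw [heq, anc_some par hx, Finset.insert_sdiff_of_notMem _ hxy, Finset.sum_insert hnp]
      linarith [htri x p y, hstep x p hx]

end

end Vale.Agent.P235
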