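import Vale.Agent.P235.Defs
import Vale.Agent.P235.Bourgain
import Vale.Agent.P235.Forest

/-!
Embedding into `ℓ¹` of graph metrics with a small feedback vertex set.
-/

open Finset

namespace Vale.Agent.P235

variable {V : Type}

section metric
variable {G : SimpleGraph V} {ℓ : Sym2 V → ℝ}

theorem walkLen_nonneg (hℓ : ∀ u v, G.Adj u v → 0 ≤ ℓ s(u, v)) {u v : V} (p : G.Walk u v) :
    0 ≤ walkLen ℓ p := by
  refine List.sum_nonneg fun a ha => ?_
  obtain ⟨e, he, rfl⟩ := List.mem_map.mp ha
  induction e using Sym2.ind with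
  | _ a b => exact hℓ a b (p.adj_of_mem_edges he)

theorem bdd_walkLen (hℓ : ∀ u v, G.Adj u v → 0 ≤ ℓ s(u, v)) (u v : V) :
    BddBelow (Set.range fun p : G.Walk u v => walkLen ℓ p) := by
  refine ⟨0, ?_⟩
  rintro _ ⟨p, rfl⟩
  exact walkLen_nonneg hℓ p

theorem pathDist_nonneg (hℓ : ∀ u v, G.Adj u v → 0 ≤ ℓ s(u, v)) (u v : V) :
    0 ≤ pathDist G ℓ u v := Real.iInf_nonneg fun p => walkLen_nonneg hℓ p

theorem pathDist_le (hℓ : ∀ u v, G.Adj u v → 0 ≤ ℓ s(u, v)) {u v : V} (p : G.Walk u v) :
    pathDist G ℓ u v ≤ walkLen ℓ p := ciInf_le (bdd_walkLen hℓ u v) p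

theorem pathDist_self (hℓ : ∀ u v, G.Adj u v → 0 ≤ ℓ s(u, v)) (u : V) : pathDist G ℓ u u = 0 :=
  le_antisymm ((pathDist_le hℓ SimpleGraph.Walk.nil).trans (by simp [walkLen]))
    (pathDist_nonneg hℓ u u)

theorem pathDist_adj (hℓ : ∀ u v, G.Adj u v → 0 ≤ ℓ s(u, v)) {u v : V} (h : G.Adj u v) :
    pathDist G ℓ u v ≤ ℓ s(u, v) := (pathDist_le hℓ h.toWalk).trans (by simp [walkLen])

theorem pathDist_symm (hℓ : ∀ u v, G.Adj u v → 0 ≤ ℓ s(u, v)) (hc : G.Connected) (u v : V) :
    pathDist G ℓ u v = pathDist G ℓ v u := by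
  have key : ∀ u v, pathDist G ℓ u v ≤ pathDist G ℓ v u := by
    intro u v
    have : Nonempty (G.Walk v u) := hc v u
    refine le_ciInf fun p => (pathDist_le hℓ p.reverse).trans (le_of_eq ?_)
    simp [walkLen, List.map_reverse]
  exact le_antisymm (key u v) (key v u)

theorem pathDist_triangle (hℓ : ∀ u v, G.Adj u v → 0 ≤ ℓ s(u, v)) (hc : G.Connected) (u v w : V) :
    pathDist G ℓ u w ≤ pathDist G ℓ u v + pathDist G ℓ v w := by
  have : Nonempty (G.Walk u v) := hc u v
  have : Nonempty (G.Walk v w) := hc v w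
  refine sub_le_iff_le_add'.mp (le_ciInf fun q => sub_le_comm.mp ?_)
  refine le_ciInf fun p => sub_le_iff_le_add.mpr ((pathDist_le hℓ (p.append q)).trans (le_of_eq ?_))
  simp [walkLen]

end metric

theorem embed_aux [Fintype V] (G : SimpleGraph V) (hc : G.Connected) (ℓ : Sym2 V → ℝ)
    (hℓ : ∀ u v, G.Adj u v → 0 ≤ ℓ s(u, v)) (S : Finset V) (hS : S.Nonempty)
    (hF : (G.induce (↑S : Set V)ᶜ).IsAcyclic) :
    ∃ (m : ℕ) (f : V → Fin m → ℝ), ∀ x y,
      pathDist G ℓ x y ≤ ∑ i, |f x i - f y i| ∧
        ∑ i, |f x i - f y i| ≤ 96 * (5 + (Nat.log 2 S.card : ℝ)) * pathDist G ℓ x y := by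
  classical
  obtain ⟨par, rk, hpar, hedge⟩ := exists_rooting G S hF
  have hrk : ∀ x p, par x = some p → rk p < rk x := fun x p h => (hpar x p h).2.2.2
  set d := pathDist G ℓ with hd
  have hnn : ∀ a b, 0 ≤ d a b := pathDist_nonneg hℓ
  have hsymm : ∀ a b, d a b = d b a := pathDist_symm hℓ hc
  have htri : ∀ a b c, d a c ≤ d a b + d b c := pathDist_triangle hℓ hc
  have hrefl : ∀ a, d a a = 0 := pathDist_self hℓ
  set r : V → ℝ := fun x => setDist d x S with hr
  have hr0 : ∀ x, 0 ≤ r x := fun x => le_setDist d x hS fun z _ => hnn x z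
  have hrS : ∀ x ∈ S, r x = 0 := fun x hx =>
    le_antisymm ((setDist_le d x hx).trans (hrefl x).le) (hr0 x)
  have hrlip : ∀ x y, |r x - r y| ≤ d x y := fun x y => setDist_lip d htri hsymm hnn x y S
  set R := ∑ z, r z with hR
  have hrR : ∀ x, r x ≤ R := fun x =>
    Finset.single_le_sum (fun z _ => hr0 z) (Finset.mem_univ x)
  have hR0 : 0 ≤ R := Finset.sum_nonneg fun z _ => hr0 z
  let len : V → ℝ := fun v => (par v).elim R (fun p => ℓ s(v, p))
  have hlen_some : ∀ v p, par v = some p → len v = ℓ s(v, p) := by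
    intro v p h; simp [len, h]
  have hlen : ∀ v, 0 ≤ len v := by
    intro v
    rcases h : par v with _ | p
    · simp [len, h, hR0]
    · rw [hlen_some v p h]; exact hℓ v p (hpar v p h).2.2.1
  have hu0 : ∀ x, 0 ≤ height par len x - r x := fun x => by
    have := height_ge par rk len hrk hlen (R := R) (fun z hz => by simp [len, hz]) x
    linarith [hrR x]
  let u : V → ℝ := fun x => height par len x - r x
  let g : V → V → ℝ := fun x v =>
    if x ∈ S then 0 else if v ∈ anc par x then clip par len (u x) v else 0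
  have hclip0 : ∀ t v, 0 ≤ clip par len t v := fun t v => le_max_left _ _
  have hgS : ∀ x ∈ S, ∀ v, g x v = 0 := fun x hx v => by simp [g, hx]
  have hgsum : ∀ x, x ∉ S → ∑ v, |g x v| = r x := by
    intro x hx
    have : ∀ v, |g x v| = if v ∈ anc par x then clip par len (u x) v else 0 := by
      intro v
      simp only [g, if_neg hx]
      split
      · exact abs_of_nonneg (hclip0 _ _)
      · exact abs_zero
    rw [Finset.sum_congr rfl fun v _ => this v, Finset.sum_ite_mem, Finset.univ_inter,
      sum_clip par rk len hrk hlen (hu0 x)]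
    simp only [u, sub_sub_cancel]
    exact max_eq_right (hr0 x)
  -- upper bound on an edge for the forest coordinates
  have hgpar : ∀ x p, par x = some p → ∑ v, |g x v - g p v| ≤ 3 * ℓ s(x, p) := by
    intro x p hxp
    obtain ⟨hxS, hpS, hadj, -⟩ := hpar x p hxp
    have hnp := notMem_anc_parent par rk hrk hxp
    have hz : ∀ v ∉ anc par x, |g x v - g p v| = 0 := by
      intro v hv
      have hv' : v ∉ anc par p := fun h => hv (by rw [anc_some par hxp]; exact mem_insert_of_mem h)
      simp [g, hxS, hpS, hv, hv']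
    rw [← Finset.sum_subset (Finset.subset_univ (anc par x)) (fun v _ hv => hz v hv),
      anc_some par hxp, Finset.sum_insert hnp]
    have e1 : |g x x - g p x| ≤ ℓ s(x, p) := by
      have : g p x = 0 := by simp [g, hpS, hnp]
      rw [this, sub_zero, ← hlen_some x p hxp]
      simp only [g, if_neg hxS, if_pos (self_mem_anc par x)]
      rw [abs_of_nonneg (hclip0 _ _), clip]
      exact max_le (hlen x) (by linarith [le_max_left (height par len x - len x) (u x)])
    have e2 : ∑ v ∈ anc par p, |g x v - g p v| ≤ |u x - u p| := by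
      have hval : ∀ v ∈ anc par p,
          g x v - g p v = clip par len (u x) v - clip par len (u p) v := by
        intro v hv
        have : v ∈ anc par x := by rw [anc_some par hxp]; exact mem_insert_of_mem hv
        simp [g, hxS, hpS, hv, this]
      have hs : ∀ t, 0 ≤ t → ∑ v ∈ anc par p, clip par len t v
          = max 0 (height par len p - t) := fun t ht => sum_clip par rk len hrk hlen ht p
      have hm : ∀ a b : ℝ, |max 0 a - max 0 b| ≤ |a - b| := fun a b => by
        rw [max_comm 0, max_comm 0]; exact abs_max_sub_max_le_abs a b 0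
      rw [Finset.sum_congr rfl fun v hv => by rw [hval v hv]]
      rcases le_total (u x) (u p) with h | h
      · rw [Finset.sum_congr rfl fun v _ => abs_of_nonneg
          (sub_nonneg.mpr (clip_antitone par len h v)), Finset.sum_sub_distrib, hs _ (hu0 x),
          hs _ (hu0 p)]
        exact (le_abs_self _).trans
          ((hm _ _).trans (le_of_eq (by rw [sub_sub_sub_cancel_left, abs_sub_comm])))
      · rw [Finset.sum_congr rfl fun v _ => abs_of_nonpos
          (sub_nonpos.mpr (clip_antitone par len h v)), Finset.sum_neg_distrib,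
          Finset.sum_sub_distrib, hs _ (hu0 x), hs _ (hu0 p)]
        exact (neg_le_abs _).trans
          ((hm _ _).trans (le_of_eq (by rw [sub_sub_sub_cancel_left, abs_sub_comm])))
    have e3 : |u x - u p| ≤ 2 * ℓ s(x, p) := by
      have h1 := abs_le.mp ((hrlip x p).trans (pathDist_adj hℓ hadj))
      have h2 := hℓ x p hadj
      have h3 := height_some par rk len hrk hxp
      rw [hlen_some x p hxp] at h3
      rw [abs_le]
      simp only [u]
      constructor <;> linarith
    linarith
  have hgedge : ∀ x y, G.Adj x y → ∑ v, |g x v - g y v| ≤ 3 * ℓ s(x, y) := by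
    intro x y h
    have hl := hℓ x y h
    by_cases hx : x ∈ S
    · by_cases hy : y ∈ S
      · simp [hgS x hx, hgS y hy]; exact hl
      · simp only [hgS x hx, zero_sub, abs_neg]
        rw [hgsum y hy]
        have h2 : d y x ≤ ℓ s(x, y) := by rw [Sym2.eq_swap]; exact pathDist_adj hℓ h.symm
        have h3 : r y ≤ d y x := setDist_le d y hx
        linarith
    · by_cases hy : y ∈ S
      · simp only [hgS y hy, sub_zero]
        rw [hgsum x hx]
        linarith [setDist_le d x hy, pathDist_adj hℓ h]
      · rcases hedge x y hx hy h with h1 | h1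
        · exact hgpar x y h1
        · rw [Sym2.eq_swap]
          refine le_trans (le_of_eq (Finset.sum_congr rfl fun v _ => abs_sub_comm _ _)) (hgpar y x h1)
  set L := Nat.log 2 S.card + 1 with hL
  have hSL : S.card < 2 ^ L := Nat.lt_pow_succ_log_self (by norm_num) _
  let Bd : V → V → ℝ := fun x y => ∑ j ∈ Finset.range L, ∑ A ∈ S.powerset,
    wt S.card j A * |setDist d x A - setDist d y A|
  let Φ : V → V → ℝ := fun x y => (∑ v, |g x v - g y v|) + |r x - r y| + Bd x y
  -- lower bound
  have hlow : ∀ x y, d x y / 48 / 2 ≤ Φ x y := by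
    intro x y
    have hB : 0 ≤ Bd x y := Finset.sum_nonneg fun j _ => Finset.sum_nonneg fun A _ =>
      mul_nonneg (wt_nonneg _ _ _) (abs_nonneg _)
    have hG : 0 ≤ ∑ v, |g x v - g y v| := Finset.sum_nonneg fun v _ => abs_nonneg _
    have hd0 := hnn x y
    rcases le_or_gt (max (r x) (r y)) (d x y / 4) with hm | hm
    · have := bourgain_lower S hS d htri hsymm L hSL x y
      simp only [Φ, Bd, hr] at *
      linarith [abs_nonneg (setDist d x S - setDist d y S)]
    · have hsum : d x y / 4 ≤ r x + r y :=
        hm.le.trans (max_le (by linarith [hr0 y]) (by linarith [hr0 x]))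
      suffices min (d x y) (r x + r y) ≤ 2 * ((∑ v, |g x v - g y v|) + |r x - r y|) by
        have h4 : d x y / 4 ≤ min (d x y) (r x + r y) := le_min (by linarith) hsum
        simp only [Φ]
        linarith
      have habs := le_abs_self (r x - r y)
      have habs' := neg_le_abs (r x - r y)
      by_cases hx : x ∈ S
      · by_cases hy : y ∈ S
        · exact (min_le_right _ _).trans (by rw [hrS x hx, hrS y hy]; linarith [abs_nonneg ((0:ℝ) - 0)])
        · simp only [hgS x hx, zero_sub, abs_neg, hgsum y hy]
          refine (min_le_right _ _).trans ?_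
          rw [hrS x hx]
          linarith [hr0 y, abs_nonneg (0 - r y)]
      · by_cases hy : y ∈ S
        · simp only [hgS y hy, sub_zero, hgsum x hx]
          refine (min_le_right _ _).trans ?_
          rw [hrS y hy]
          linarith [hr0 x, abs_nonneg (r x - 0)]
        · set Dx := anc par x \ anc par y
          set Dy := anc par y \ anc par x
          have hdj : Disjoint Dx Dy := disjoint_sdiff_sdiff
          have hge : (∑ v ∈ Dx, clip par len (u x) v) + ∑ v ∈ Dy, clip par len (u y) v
              ≤ ∑ v, |g x v - g y v| := by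
            refine le_trans ?_ (Finset.sum_le_sum_of_subset_of_nonneg
              (Finset.subset_univ (Dx ∪ Dy)) fun v _ _ => abs_nonneg _)
            rw [Finset.sum_union hdj]
            refine add_le_add (Finset.sum_le_sum fun v hv => ?_) (Finset.sum_le_sum fun v hv => ?_)
            · obtain ⟨h1, h2⟩ := Finset.mem_sdiff.mp hv
              simp [g, hx, hy, h1, h2, le_abs_self]
            · obtain ⟨h1, h2⟩ := Finset.mem_sdiff.mp hv
              simp [g, hx, hy, h1, h2, le_abs_self]
          have h1 := sum_clip_sdiff par rk len hrk hlen (u := u x) x y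
          have h2 := sum_clip_sdiff par rk len hrk hlen (u := u y) y x
          rw [show max 0 (height par len x - u x) = r x by
            simp only [u, sub_sub_cancel]; exact max_eq_right (hr0 x)] at h1
          rw [show max 0 (height par len y - u y) = r y by
            simp only [u, sub_sub_cancel]; exact max_eq_right (hr0 y)] at h2
          set a := ∑ v ∈ Dx, len v
          set b := ∑ v ∈ Dy, len v
          have ha : 0 ≤ a := Finset.sum_nonneg fun v _ => hlen v
          have hb : 0 ≤ b := Finset.sum_nonneg fun v _ => hlen v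
          have hab : d x y ≤ a + b ∨ (r x ≤ a ∧ r y ≤ b) := by
            by_cases hne : (anc par x ∩ anc par y).Nonempty
            · exact Or.inl (tree_dist par rk len hrk d hrefl hsymm htri (fun z p hz => by
                rw [hlen_some z p hz]; exact pathDist_adj hℓ (hpar z p hz).2.2.1) x y hne)
            · rw [Finset.not_nonempty_iff_eq_empty, ← Finset.disjoint_iff_inter_eq_empty] at hne
              refine Or.inr ⟨?_, ?_⟩
              · have : Dx = anc par x := Finset.sdiff_eq_self_of_disjoint hne
                simp only [a, this]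
                linarith [hu0 x, show ∑ v ∈ anc par x, len v = height par len x from rfl]
              · have : Dy = anc par y := Finset.sdiff_eq_self_of_disjoint hne.symm
                simp only [b, this]
                linarith [hu0 y, show ∑ v ∈ anc par y, len v = height par len y from rfl]
          have m1 := min_le_left (d x y) (r x + r y)
          have m2 := min_le_right (d x y) (r x + r y)
          rcases min_cases a (r x) with ⟨e1, -⟩ | ⟨e1, -⟩ <;>
            rcases min_cases b (r y) with ⟨e2, -⟩ | ⟨e2, -⟩ <;>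
            rcases hab with hab | ⟨hab1, hab2⟩ <;>
            rw [e1] at h1 <;> rw [e2] at h2 <;>
            linarith [hr0 x, hr0 y, abs_nonneg (r x - r y)]
  -- upper bound
  have hup : ∀ x y, G.Adj x y → Φ x y ≤ (4 + (L : ℝ)) * ℓ s(x, y) := by
    intro x y h
    have hBd : Bd x y ≤ (L : ℝ) * ℓ s(x, y) := by
      refine le_trans (Finset.sum_le_sum fun j _ =>
        (sum_wt_lip S d htri hsymm hnn x y j).trans (pathDist_adj hℓ h)) ?_
      simp
    have := hgedge x y h
    have := (hrlip x y).trans (pathDist_adj hℓ h)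
    simp only [Φ]
    linarith
  let ι := V ⊕ Unit ⊕ (Fin L × Finset V)
  let F : V → ι → ℝ := fun x i => match i with
    | Sum.inl v => 96 * g x v
    | Sum.inr (Sum.inl _) => 96 * r x
    | Sum.inr (Sum.inr (j, A)) => if A ⊆ S then 96 * (wt S.card j A * setDist d x A) else 0
  have hFΦ : ∀ x y, ∑ i, |F x i - F y i| = 96 * Φ x y := by
    intro x y
    have h96 : ∀ a b : ℝ, |96 * a - 96 * b| = 96 * |a - b| := fun a b => by
      rw [← mul_sub, abs_mul, abs_of_pos (show (0 : ℝ) < 96 by norm_num)]
    show ∑ i : V ⊕ Unit ⊕ (Fin L × Finset V), |F x i - F y i| = _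
    rw [Fintype.sum_sum_type, Fintype.sum_sum_type, Fintype.sum_prod_type, ← add_assoc]
    simp only [Φ, mul_add]
    refine congrArg₂ (· + ·) (congrArg₂ (· + ·) ?_ ?_) ?_
    · rw [Finset.mul_sum]
      exact Finset.sum_congr rfl fun v _ => h96 _ _
    · simp only [F, Fintype.sum_unique, h96]
    · simp only [Bd, Finset.mul_sum]
      rw [Finset.sum_range]
      refine Finset.sum_congr rfl fun j _ => ?_
      rw [← Finset.sum_subset (Finset.subset_univ S.powerset)]
      · refine Finset.sum_congr rfl fun A hA => ?_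
        simp only [F, if_pos (Finset.mem_powerset.mp hA), h96]
        rw [← mul_sub (wt S.card j A), abs_mul, abs_of_nonneg (wt_nonneg _ _ _)]
      · intro A _ hA
        have : ¬ A ⊆ S := fun h' => hA (Finset.mem_powerset.mpr h')
        simp [F, this]
  let e := Fintype.equivFin ι
  refine ⟨Fintype.card ι, fun x i => F x (e.symm i), fun x y => ?_⟩
  rw [Equiv.sum_comp e.symm (fun i => |F x i - F y i|), hFΦ]
  refine ⟨by linarith [hlow x y], ?_⟩
  have hwalk : ∀ {a b : V} (p : G.Walk a b),
      ∑ i, |F a i - F b i| ≤ 96 * (4 + (L : ℝ)) * walkLen ℓ p := by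
    intro a b p
    induction p with
    | nil => simp [walkLen]
    | @cons a c b h q ih =>
      calc ∑ i, |F a i - F b i| ≤ ∑ i, (|F a i - F c i| + |F c i - F b i|) :=
            Finset.sum_le_sum fun i _ => abs_sub_le _ _ _
        _ = (∑ i, |F a i - F c i|) + ∑ i, |F c i - F b i| := Finset.sum_add_distrib
        _ ≤ _ := by
          have h1 := hup a c h
          have h2 := hFΦ a c
          simp only [walkLen, SimpleGraph.Walk.edges_cons, List.map_cons, List.sum_cons] at ih ⊢
          nlinarith
  rw [← hFΦ]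
  have hL' : (L : ℝ) = (Nat.log 2 S.card : ℝ) + 1 := by rw [hL]; push_cast; rfl
  have hC : (0 : ℝ) < 96 * (4 + (L : ℝ)) := by positivity
  rw [show (5 : ℝ) + (Nat.log 2 S.card : ℝ) = 4 + (L : ℝ) by linarith]
  have : Nonempty (G.Walk x y) := hc x y
  rw [← div_le_iff₀' hC]
  exact le_ciInf fun p => by rw [div_le_iff₀' hC]; exact hwalk p

/-- Graphs with a feedback vertex set `S` embed into `ℓ¹` with distortion `O(1 + log |S|)`. -/
theorem embed [Fintype V] (G : SimpleGraph V) (hc : G.Connected) (ℓ : Sym2 V → ℝ)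
    (hℓ : ∀ u v, G.Adj u v → 0 ≤ ℓ s(u, v)) (S : Finset V)
    (hF : (G.induce (↑S : Set V)ᶜ).IsAcyclic) :
    ∃ (m : ℕ) (f : V → Fin m → ℝ), ∀ x y,
      pathDist G ℓ x y ≤ ∑ i, |f x i - f y i| ∧
        ∑ i, |f x i - f y i| ≤ 96 * (5 + (Nat.log 2 S.card : ℝ)) * pathDist G ℓ x y := by
  rcases S.eq_empty_or_nonempty with rfl | hS
  · obtain ⟨v⟩ := hc.nonempty
    have hsub : ((↑({v} : Finset V) : Set V))ᶜ ⊆ ((↑(∅ : Finset V) : Set V))ᶜ := by simp
    have := embed_aux G hc ℓ hℓ {v} (Finset.singleton_nonempty v)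
      (hF.comap (G.induceHomOfLE hsub).toHom (G.induceHomOfLE hsub).injective)
    simpa using this
  · exact embed_aux G hc ℓ hℓ S hS hF

end Vale.Agent.P235
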